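import Vale.Agent.P184.Winding.Moments

/-!
P184: affine data with polynomial growth on finitely generated subgroups kill the coefficient.
-/

namespace Vale.P184.Winding

open scoped Matrix.Norms.Operator

open Twist

variable {G : Type*} [Group G] {E : Type*} [NormedAddCommGroup E] [NormedSpace ℝ E] {g : G}

theorem class_conj {x : G} (hx : x ∈ (ConjClasses.mk g).carrier) (h : G) :
    h * x * h⁻¹ ∈ (ConjClasses.mk g).carrier := by
  rw [ConjClasses.mem_carrier_iff_mk_eq] at hx ⊢
  rw [← hx, ConjClasses.mk_eq_mk_iff_isConj]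
  exact (isConj_iff.2 ⟨h, rfl⟩).symm

/-- An affine action of `G` with invariant forms, periodic at the `m`-th powers of a class. -/
structure Affine (g : G) (m : ℕ) (E : Type*) [NormedAddCommGroup E] [NormedSpace ℝ E] where
  /-- the orbit map of the origin -/
  p : G → E
  /-- the linear part -/
  T : G → E →ₗ[ℝ] E
  /-- the forms -/
  form : G → Form E
  /-- the period -/
  U : G → E
  cocycle : ∀ h y, p (h * y) = p h + T h (p y)
  vert : ∀ x ∈ (ConjClasses.mk g).carrier, (form x).Vert (U x)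
  norm_U : ∀ x ∈ (ConjClasses.mk g).carrier, (form x).θ (U x) = 1
  period : ∀ x ∈ (ConjClasses.mk g).carrier, ∀ y, p (x ^ m * y) = p y + (m : ℝ) • U x
  maps : ∀ x ∈ (ConjClasses.mk g).carrier, ∀ h,
    Form.Maps (T h) (p h) (form x) (form (h * x * h⁻¹))
  bound : ∃ c, ∀ x ∈ (ConjClasses.mk g).carrier, (form x).BoundedBy c
  growth : ∀ A : Finset G, ∃ (C : ℝ) (N : ℕ), 0 ≤ C ∧
    ∀ n x, Word A n x → ‖p x‖ ≤ C * (1 + (n : ℝ)) ^ N

variable {m : ℕ}

/-- The datum on the subgroup generated by a finite set. -/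
noncomputable def datum (D : Affine g m E) (hm : 0 < m) (A : Finset G) :
    Datum {x : Subgroup.closure (A : Set G) | (x : G) ∈ (ConjClasses.mk g).carrier}
      (fun x => (wlen x : ℝ)) E where
  pos x y := (m : ℝ)⁻¹ • ∑ i ∈ Finset.range m, D.p ((x : G) ^ i * (y : G))
  form x := D.form x
  U x := D.U x
  conj_mem x hx h := by simpa using class_conj hx (h : G)
  vert x hx := D.vert _ hx
  norm_U x hx := D.norm_U _ hx
  period x hx y := by
    have hm0 : (m : ℝ) ≠ 0 := Nat.cast_ne_zero.2 hm.ne'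
    have e1 : ∀ i, D.p ((x : G) ^ i * ((x * y : Subgroup.closure (A : Set G)) : G)) =
        D.p ((x : G) ^ (i + 1) * (y : G)) := fun i => by
      rw [Subgroup.coe_mul, ← mul_assoc, pow_succ]
    have e2 := Finset.sum_range_succ' (fun i => D.p ((x : G) ^ i * (y : G))) m
    rw [Finset.sum_range_succ, D.period _ hx] at e2
    simp only [pow_zero, one_mul] at e2
    simp only [e1]
    have e3 : ∑ i ∈ Finset.range m, D.p ((x : G) ^ (i + 1) * (y : G)) =
        ∑ i ∈ Finset.range m, D.p ((x : G) ^ i * (y : G)) + (m : ℝ) • D.U x := by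
      refine add_right_cancel (b := D.p (y : G)) ?_
      rw [← e2]; abel
    rw [e3, smul_add, smul_smul, inv_mul_cancel₀ hm0, one_smul]
  equiv x hx h := by
    refine ⟨D.T h, D.p h, by simpa using D.maps _ hx (h : G), fun y => ?_⟩
    have hm0 : (m : ℝ) ≠ 0 := Nat.cast_ne_zero.2 hm.ne'
    have e : ∀ i, D.p (((h * x * h⁻¹ : Subgroup.closure (A : Set G)) : G) ^ i *
        ((h * y : Subgroup.closure (A : Set G)) : G)) =
        D.p h + D.T h (D.p ((x : G) ^ i * (y : G))) := fun i => by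
      rw [← D.cocycle]
      simp only [Subgroup.coe_mul, Subgroup.coe_inv, conj_pow]
      simp [mul_assoc]
    simp only [e, Finset.sum_add_distrib, smul_add, map_smul, map_sum, Finset.sum_const,
      Finset.card_range, ← Nat.cast_smul_eq_nsmul ℝ, smul_smul, inv_mul_cancel₀ hm0, one_smul]
  bound := by
    obtain ⟨c, hc⟩ := D.bound
    exact ⟨c, fun x hx => hc _ hx⟩
  growth := by
    obtain ⟨C, N, hC, hg⟩ := D.growth A
    refine ⟨C * ((m : ℝ) + 1) ^ N, N, by positivity, fun x _ y => ?_⟩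
    have hle : ∀ i ∈ Finset.range m, ‖D.p ((x : G) ^ i * (y : G))‖ ≤
        C * ((m : ℝ) + 1) ^ N * (1 + wlen x + wlen y) ^ N := by
      intro i hi
      have hw : ∀ i : ℕ, Word A (i * wlen x + wlen y) ((x : G) ^ i * (y : G)) := fun i => by
        induction i with
        | zero => simpa using word_wlen y
        | succ i ih =>
          rw [pow_succ', mul_assoc]
          exact ((word_wlen x).mul ih).mono (by rw [Nat.succ_mul]; omega)
      refine (hg _ _ (hw i)).trans ?_
      rw [mul_assoc, ← mul_pow]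
      refine mul_le_mul_of_nonneg_left (pow_le_pow_left₀ (by positivity) ?_ N) hC
      have hi' : (i : ℝ) ≤ m := by exact_mod_cast (Finset.mem_range.1 hi).le
      have hx0 : (0 : ℝ) ≤ wlen x := Nat.cast_nonneg _
      have hy0 : (0 : ℝ) ≤ wlen y := Nat.cast_nonneg _
      push_cast
      nlinarith [mul_le_mul_of_nonneg_right hi' hx0, mul_nonneg (Nat.cast_nonneg (α := ℝ) m) hy0]
    refine (norm_smul_le _ _).trans ?_
    refine (mul_le_mul_of_nonneg_left ((norm_sum_le _ _).trans (Finset.sum_le_card_nsmul _ _ _ hle))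
      (norm_nonneg _)).trans (le_of_eq ?_)
    rw [Finset.card_range, nsmul_eq_mul, norm_inv, Real.norm_natCast, ← mul_assoc,
      inv_mul_cancel₀ (Nat.cast_ne_zero.2 hm.ne'), one_mul]
  ℓ_nonneg x := Nat.cast_nonneg _
  ℓ_one := by simp [wlen_one]
  ℓ_mul a b := by exact_mod_cast wlen_mul a b

/-- **Vanishing of the coefficient for affine data.** -/
theorem hsCoeff_eq_zero_of_affine [FiniteDimensional ℝ E] (D : Affine g m E) (hm : 0 < m) {q : ℕ}
    {e : Fin q → Fin q → G → ℂ} (he : IsL1Idempotent e) :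
    hsCoeff e (ConjClasses.mk g).carrier = 0 := by
  classical
  have hNs : Summable (mass e) := summable_sum fun i _ => summable_sum fun j _ => he.1 i j
  have hN0 : ∀ x, 0 ≤ mass e x := fun x =>
    Finset.sum_nonneg fun _ _ => Finset.sum_nonneg fun _ _ => norm_nonneg _
  set B := ∑' x, mass e x with hB
  have hB0 : 0 ≤ B := tsum_nonneg hN0
  set η : ℝ := 1 / (32 * (B + 1) ^ 2) with hη
  have hη0 : 0 < η := by positivity
  obtain ⟨A, hA⟩ : ∃ A : Finset G, ∀ W : Finset G, Disjoint W A → ∑ x ∈ W, mass e x ≤ η := by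
    obtain ⟨A, hA⟩ := hNs.vanishing (Metric.ball_mem_nhds (0 : ℝ) hη0)
    refine ⟨A, fun W hW => ?_⟩
    have := hA W hW
    rw [Metric.mem_ball, dist_zero_right, Real.norm_eq_abs] at this
    exact (le_abs_self _).trans this.le
  let N0 : G → ℝ := fun x => if x ∈ A then mass e x else 0
  let Nb : G → ℝ := fun x => if x ∈ A then 0 else mass e x
  have hN0s : Summable N0 := Summable.of_norm_bounded hNs fun x => by
    by_cases h : x ∈ A <;> simp [N0, h, abs_of_nonneg (hN0 x), hN0 x]
  have hNbs : Summable Nb := Summable.of_norm_bounded hNs fun x => by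
    by_cases h : x ∈ A <;> simp [Nb, h, abs_of_nonneg (hN0 x), hN0 x]
  let f0 : G → Matrix (Fin q) (Fin q) ℂ := fun x => if x ∈ A then mat e x else 0
  let p : kern (Matrix (Fin q) (Fin q) ℂ) g := ⟨fun a b => mat e (a * b⁻¹),
    fun a b c _ => by simp [mul_assoc], mass e, hNs, fun a b => norm_mat_le _⟩
  have hx0b : ∀ a b : G, ‖f0 (a * b⁻¹)‖ ≤ N0 (a * b⁻¹) := fun a b => by
    by_cases h : a * b⁻¹ ∈ A
    · simp only [f0, N0, if_pos h]; exact norm_mat_le _
    · simp [f0, N0, h]
  let x0 : kern (Matrix (Fin q) (Fin q) ℂ) g := ⟨fun a b => f0 (a * b⁻¹),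
    fun a b c _ => by simp [f0, mul_assoc], N0, hN0s, hx0b⟩
  have hp : Bd (p : G → G → Matrix (Fin q) (Fin q) ℂ) (mass e) := ⟨hNs, fun a b => norm_mat_le _⟩
  have hbx : Bd (x0 : G → G → Matrix (Fin q) (Fin q) ℂ) N0 := ⟨hN0s, hx0b⟩
  have hbd : Bd ((x0 - p : kern (Matrix (Fin q) (Fin q) ℂ) g) : G → G → Matrix (Fin q) (Fin q) ℂ) Nb := ⟨hNbs, fun a b => by
    show ‖f0 (a * b⁻¹) - mat e (a * b⁻¹)‖ ≤ _
    by_cases h : a * b⁻¹ ∈ A
    · simp [f0, Nb, h]
    · simp only [f0, Nb, if_neg h, zero_sub, norm_neg]; exact norm_mat_le _⟩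
  have hN0B : ∑' x, N0 x ≤ B := hN0s.tsum_le_tsum (fun x => by
    by_cases h : x ∈ A <;> simp [N0, h, hN0 x]) hNs
  have hNbη : ∑' x, Nb x ≤ η := hNbs.tsum_le_of_sum_le fun W => by
    refine le_trans (le_of_eq ?_) (hA (W.filter fun x => x ∉ A)
      (Finset.disjoint_left.2 fun x hx => (Finset.mem_filter.1 hx).2))
    rw [Finset.sum_filter]
    exact Finset.sum_congr rfl fun x _ => by by_cases h : x ∈ A <;> simp [Nb, h]
  have hpidem : p * p = p := by
    refine kern_ext fun a b => ?_
    have hs := summable_entry p p a b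
    rw [mul_apply]
    ext i j
    let E : Matrix (Fin q) (Fin q) ℂ →L[ℂ] ℂ :=
      LinearMap.toContinuousLinearMap (Matrix.entryLinearMap ℂ ℂ i j)
    refine (E.map_tsum hs).trans ?_
    show (∑' c, ((mat e (a * c⁻¹)) * mat e (c * b⁻¹)) i j) = e i j (a * b⁻¹)
    have hk : ∀ k, Summable fun c => e i k (a * c⁻¹) * e k j (c * b⁻¹) := fun k => by
      refine Summable.of_norm_bounded (g := fun c => ‖e i k (a * c⁻¹)‖ * ∑' x, ‖e k j x‖)
        ((((Bd.divL a)).summable_iff (f := fun x => ‖e i k x‖)).2 (he.1 i k) |>.mul_right _) fun c => ?_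
      rw [norm_mul]
      exact mul_le_mul_of_nonneg_left ((he.1 k j).le_tsum _ fun _ _ => norm_nonneg _) (norm_nonneg _)
    simp only [Matrix.mul_apply, mat, Matrix.of_apply]
    rw [Summable.tsum_finsetSum fun k _ => hk k, ← he.2 i j (a * b⁻¹)]
    refine Finset.sum_congr rfl fun k _ => ?_
    rw [← (Bd.divL a).tsum_eq fun x => e i k x * e k j (x⁻¹ * (a * b⁻¹))]
    exact tsum_congr fun c => by simp [Bd.divL, mul_assoc]
  have hfull : ∀ a b c : G, (x0 : G → G → Matrix (Fin q) (Fin q) ℂ) (a * c) (b * c) =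
      (x0 : G → G → Matrix (Fin q) (Fin q) ℂ) a b := fun a b c => by
    show f0 _ = f0 _
    simp [mul_assoc]
  have hw1 : ∀ x, N0 x ≠ 0 → Word A 1 x := fun x hx => ⟨[x], fun a ha => by
    rw [List.mem_singleton] at ha; subst ha
    by_contra h; push Not at h; exact hx (by simp [N0, h.1]), by simp, by simp⟩
  have hsx : Sml A 1 B x0 := ⟨hfull, N0, hbx, hN0B, hw1⟩
  -- the defect
  set ε := η * B + B * η + η with hε
  have hsd : Sml A 2 ε (x0 * x0 - x0) := by
    obtain ⟨hf, N1, hN1, -, hN1r⟩ := (hsx.mul hsx).sub hsx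
    have e1 : x0 * x0 - x0 = (x0 - p) * x0 + p * (x0 - p) - (x0 - p) := by
      simp only [mul_sub, sub_mul, hpidem]; abel
    have h2 := hbd.mul hbx
    have h3 := hp.mul hbd
    have hN2 : Bd ((x0 * x0 - x0 : kern (Matrix (Fin q) (Fin q) ℂ) g) : G → G → Matrix (Fin q) (Fin q) ℂ)
        (Bd.conv Nb N0 + Bd.conv (mass e) Nb + Nb) := by
      rw [e1]
      refine ⟨(h2.summable.add h3.summable).add hNbs, fun a b => ?_⟩
      exact (norm_sub_le _ _).trans (add_le_add ((norm_add_le _ _).trans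
        (add_le_add (h2.bound a b) (h3.bound a b))) (hbd.bound a b))
    refine ⟨hf, fun x => min (N1 x) ((Bd.conv Nb N0 + Bd.conv (mass e) Nb + Nb) x),
      ⟨?_, fun a b => le_min (hN1.bound a b) (hN2.bound a b)⟩, ?_, fun x hx => ?_⟩
    · exact Summable.of_nonneg_of_le (fun x => le_min (hN1.nonneg x) (hN2.nonneg x))
        (fun x => min_le_left _ _) hN1.summable
    · refine ((Summable.of_nonneg_of_le (fun x => le_min (hN1.nonneg x) (hN2.nonneg x))
        (fun x => min_le_left _ _) hN1.summable).tsum_le_tsum (fun x => min_le_right _ _)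
        hN2.summable).trans ?_
      simp only [Pi.add_apply]
      rw [(h2.summable.add h3.summable).tsum_add hNbs, h2.summable.tsum_add h3.summable,
        hbd.tsum_conv hbx, hp.tsum_conv hbd]
      refine add_le_add (add_le_add ?_ ?_) hNbη
      · exact mul_le_mul hNbη hN0B hbx.tsum_nonneg hη0.le
      · exact mul_le_mul_of_nonneg_left hNbη hB0
    · refine (hN1r x fun h => hx ?_).mono (by norm_num)
      simp only [h, min_eq_left (hN2.nonneg x)]
  have hηB : η * (B + 1) ^ 2 = 1 / 32 := by rw [hη]; field_simp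
  obtain ⟨P, N, hP, hPf, hPb, hPs, hPm, Mt, hMt, hMts⟩ :=
    exists_limit hsx hsd (by nlinarith) (by nlinarith)
  -- same trace
  have htau : tau (trL q) P = tau (trL q) p := by
    refine tau_eq_of_close (trL q) (fun x y => Matrix.trace_mul_comm x y) hP hpidem
      (N := Mt + Nb) ⟨hMt.summable.add hNbs, fun a b => ?_⟩ ?_
    · have e1 : (P - p : kern (Matrix (Fin q) (Fin q) ℂ) g) = (P - x0) + (x0 - p) := by abel
      rw [e1]
      exact (norm_add_le _ _).trans (add_le_add (hMt.bound a b) (hbd.bound a b))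
    · simp only [Pi.add_apply]
      rw [hMt.summable.tsum_add hNbs]
      nlinarith
  let F : G → Matrix (Fin q) (Fin q) ℂ := fun x => (P : G → G → Matrix (Fin q) (Fin q) ℂ) x 1
  have hF : ∀ a b, (P : G → G → Matrix (Fin q) (Fin q) ℂ) a b = F (a * b⁻¹) := fun a b => by
    show _ = (P : G → G → Matrix (Fin q) (Fin q) ℂ) (a * b⁻¹) 1
    rw [← hPf (a * b⁻¹) 1 b, inv_mul_cancel_right, one_mul]
  have hFN : ∀ x, ‖F x‖ ≤ N x := fun x => by simpa using hPb.bound x 1
  have hFsupp : ∀ x, F x ≠ 0 → x ∈ Subgroup.closure (A : Set G) := fun x hx =>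
    hPs x fun h => hx (norm_le_zero_iff.1 (h ▸ hFN x))
  let M : Subgroup.closure (A : Set G) → Matrix (Fin q) (Fin q) ℂ := fun x => F x
  have hnice : Nice M (fun x => (wlen x : ℝ)) := by
    refine ⟨fun j => Summable.of_nonneg_of_le (fun x => by positivity)
      (fun x => mul_le_mul_of_nonneg_right (hFN _) (by positivity)) (hPm j), fun c => ?_⟩
    have h1 := congrArg (fun K : kern (Matrix (Fin q) (Fin q) ℂ) g => (K : G → G → Matrix (Fin q) (Fin q) ℂ) (c : G) 1) hP
    simp only [mul_apply, hF, inv_one, mul_one] at h1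
    rw [← (Bd.divL (c : G)).symm.tsum_eq] at h1
    simp only [← Bd.divL_apply (c : G), Equiv.apply_symm_apply] at h1
    rw [← (Subtype.val_injective (p := fun x : G => x ∈ Subgroup.closure (A : Set G))).tsum_eq] at h1
    · refine (tsum_congr fun a => ?_).trans h1
      show F (a : G) * F ((a⁻¹ * c : Subgroup.closure (A : Set G)) : G) = _
      simp [Bd.divL]
    · intro a ha
      simp only [Function.mem_support] at ha
      exact ⟨⟨a, hFsupp a fun h => ha (by simp [h])⟩, rfl⟩
  have h0 := trace_eq_zero hnice (datum D hm A)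
  have hτ : ∀ K : kern (Matrix (Fin q) (Fin q) ℂ) g, ∀ F' : G → Matrix (Fin q) (Fin q) ℂ,
      (∀ a b, (K : G → G → Matrix (Fin q) (Fin q) ℂ) a b = F' (a * b⁻¹)) →
      tau (trL q) K = ∑' x : (ConjClasses.mk g).carrier, (F' (x : G)).trace := by
    intro K F' hK
    rw [← (classEquiv g).tsum_eq fun x : (ConjClasses.mk g).carrier => (F' (x : G)).trace]
    refine tsum_congr fun σ => ?_
    show ((K : G → G → Matrix (Fin q) (Fin q) ℂ) (rep σ * g) (rep σ)).trace = _
    rw [hK]
    rfl
  have hp' : hsCoeff e (ConjClasses.mk g).carrier = tau (trL q) p := by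
    rw [hτ p (mat e) fun a b => rfl]
    rfl
  rw [hp', ← htau, hτ P F hF, tsum_subtype ((ConjClasses.mk g).carrier) fun x => (F x).trace,
    ← (Subtype.val_injective (p := fun x : G => x ∈ Subgroup.closure (A : Set G))).tsum_eq]
  · refine Eq.trans (tsum_congr fun x => ?_) h0
    simp [Set.indicator_apply, M]
  · intro a ha
    simp only [Function.mem_support] at ha
    exact ⟨⟨a, hFsupp a fun h => ha (by simp [h, Set.indicator_apply])⟩, rfl⟩

end Vale.P184.Winding
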