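import Vale.Agent.P184.Winding.Forms

/-!
P184: polynomial bounds for the forms on simplices.
-/

namespace Vale.P184.Winding.Form

open Fin

variable {E : Type*} [NormedAddCommGroup E] [NormedSpace ℝ E]

/-- Both parts of the form are bounded by `c`. -/
structure BoundedBy (D : Form E) (c : ℝ) : Prop where
  one_le : 1 ≤ c
  θ_le : ∀ y, |D.θ y| ≤ c * ‖y‖
  β_le : ∀ x y, |D.β x y| ≤ c * ‖x‖ * ‖y‖

theorem abs_wedge_le {n : ℕ} (t : E →ₗ[ℝ] ℝ) (Φ : E [⋀^Fin n]→ₗ[ℝ] ℝ) {a b R : ℝ}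
    (v : Fin (n + 1) → E) (hv : ∀ i, ‖v i‖ ≤ R) (ha : ∀ y, ‖y‖ ≤ R → |t y| ≤ a)
    (hb : ∀ w : Fin n → E, (∀ i, ‖w i‖ ≤ R) → |Φ w| ≤ b) :
    |wedge t Φ v| ≤ (n + 1) * (a * b) := by
  have ha0 : 0 ≤ a := (abs_nonneg _).trans (ha _ (hv 0))
  rw [wedge_apply]
  refine (Finset.abs_sum_le_sum_abs _ _).trans ?_
  refine (Finset.sum_le_card_nsmul _ _ (a * b) fun i _ => ?_).trans (le_of_eq ?_)
  · rw [abs_mul, abs_pow, abs_neg, abs_one, one_pow, one_mul, abs_mul]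
    exact mul_le_mul (ha _ (hv i)) (hb _ fun j => hv _) (abs_nonneg _) ha0
  · simp

theorem exists_Om_le {c : ℝ} (hc : 1 ≤ c) (k : ℕ) :
    ∃ A, 0 ≤ A ∧ ∀ D : Form E, D.BoundedBy c → ∀ R : ℝ, 0 ≤ R →
      ∀ v : Fin (2 * k) → E, (∀ i, ‖v i‖ ≤ R) → |D.Om k v| ≤ A * R ^ (2 * k) := by
  induction k with
  | zero => exact ⟨1, zero_le_one, fun D _ R _ v _ => le_of_eq (by rw [D.Om_zero v]; simp)⟩
  | succ k ih =>
    obtain ⟨A, hA, h⟩ := ih
    refine ⟨(2 * k + 1 + 1 : ℕ) * ((2 * k + 1 : ℕ) * (c * A)), by positivity,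
      fun D hD R hR v hv => ?_⟩
    rw [Om_succ]
    refine (Finset.abs_sum_le_sum_abs _ _).trans ?_
    refine (Finset.sum_le_card_nsmul _ _ ((2 * k + 1 : ℕ) * ((c * R * R) * (A * R ^ (2 * k))))
      fun i _ => ?_).trans (le_of_eq ?_)
    · rw [abs_mul, abs_pow, abs_neg, abs_one, one_pow, one_mul]
      refine (abs_wedge_le (R := R) (a := c * R * R) _ _ _ (fun j => hv _) (fun y hy => ?_)
        (fun w hw => h D hD R hR w hw)).trans (le_of_eq (by push_cast; ring))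
      exact (hD.β_le _ _).trans (mul_le_mul (mul_le_mul_of_nonneg_left (hv i) (by linarith)) hy
        (norm_nonneg _) (mul_nonneg (by linarith) hR))
    · rw [Finset.card_univ, Fintype.card_fin, nsmul_eq_mul, show 2 * (k + 1) = 2 * k + 2 by ring,
        pow_add]
      ring

theorem exists_F_le {c : ℝ} (hc : 1 ≤ c) (k : ℕ) :
    ∃ A, 0 ≤ A ∧ ∀ D : Form E, D.BoundedBy c → ∀ R : ℝ, 0 ≤ R →
      ∀ p : Fin (2 * k + 1) → E, (∀ i, ‖p i‖ ≤ R) → |D.F k p| ≤ A * R ^ (2 * k) := by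
  obtain ⟨A, hA, h⟩ := exists_Om_le (E := E) hc k
  refine ⟨A * 2 ^ (2 * k), by positivity, fun D hD R hR p hp => ?_⟩
  refine (h D hD (2 * R) (by linarith) _ fun i => (norm_sub_le _ _).trans ?_).trans
    (le_of_eq (by rw [mul_pow]; ring))
  linarith [hp i.succ, hp 0]

theorem exists_L_le {c : ℝ} (hc : 1 ≤ c) (k : ℕ) :
    ∃ A, 0 ≤ A ∧ ∀ D : Form E, D.BoundedBy c → ∀ R : ℝ, 0 ≤ R →
      ∀ p : Fin (2 * k + 1 + 1) → E, (∀ i, ‖p i‖ ≤ R) → |D.L k p| ≤ A * (1 + R) ^ (2 * k + 2) := by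
  obtain ⟨A, hA, h⟩ := exists_Om_le (E := E) hc k
  refine ⟨(2 * k + 1 : ℕ) * ((2 * k + 2 : ℕ) * (2 * c) * (A * 2 ^ (2 * k))), by positivity,
    fun D hD R hR p hp => ?_⟩
  have hv : ∀ j : Fin (2 * k + 1), ‖p j.succ - p 0‖ ≤ 2 * R := fun j =>
    (norm_sub_le _ _).trans (by linarith [hp j.succ, hp 0])
  refine (abs_wedge_le (R := 2 * R) (a := (2 * k + 2 : ℕ) * (2 * c) * (1 + R) ^ 2) _ _ _ hv
    (fun y hy => ?_) (fun w hw => (h D hD (2 * R) (by linarith) w hw))).trans ?_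
  · have hs : ‖∑ i, p i‖ ≤ (2 * k + 2 : ℕ) * R :=
      (norm_sum_le _ _).trans ((Finset.sum_le_card_nsmul _ _ R fun i _ => hp i).trans
        (le_of_eq (by rw [Finset.card_univ, Fintype.card_fin, nsmul_eq_mul])))
    have h1 : |D.θ y| ≤ c * (2 * R) :=
      (hD.θ_le y).trans (mul_le_mul_of_nonneg_left hy (by linarith))
    have h2 : |D.β (∑ i, p i) y| ≤ c * ((2 * k + 2 : ℕ) * R) * (2 * R) :=
      (hD.β_le _ _).trans (mul_le_mul (mul_le_mul_of_nonneg_left hs (by linarith)) hy (norm_nonneg _)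
        (by positivity))
    simp only [cov, LinearMap.add_apply, LinearMap.smul_apply, smul_eq_mul]
    refine (abs_add_le _ _).trans ?_
    rw [abs_mul, abs_of_nonneg (by positivity : (0 : ℝ) ≤ 2 * (k : ℝ) + 2)]
    refine (add_le_add (mul_le_mul_of_nonneg_left h1 (by positivity)) h2).trans ?_
    push_cast
    have hk : (0 : ℝ) ≤ (2 * (k : ℝ) + 2) * (2 * c) := by positivity
    nlinarith
  · rw [mul_pow, pow_add]
    have hR1 : R ^ (2 * k) ≤ (1 + R) ^ (2 * k) := pow_le_pow_left₀ hR (by linarith) _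
    have := mul_le_mul_of_nonneg_left hR1
      (show (0 : ℝ) ≤ (2 * k + 1 : ℕ) * ((2 * k + 2 : ℕ) * (2 * c) * (A * 2 ^ (2 * k)) * (1 + R) ^ 2)
        by positivity)
    push_cast at this ⊢
    linarith

end Vale.P184.Winding.Form
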