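import Mathlib

/-!
P184: cone identities for alternating forms evaluated on the edges of a simplex.
-/

namespace Vale.P184.Winding

open Fin

variable {E : Type*} [AddCommGroup E] [Module ℝ E] {n : ℕ}

/-- The value of a form on the edges of a simplex at its first vertex. -/
def edge (Φ : E [⋀^Fin n]→ₗ[ℝ] ℝ) (q : Fin (n + 1) → E) : ℝ := Φ fun j => q j.succ - q 0

theorem uncurry_apply (f : E →ₗ[ℝ] E [⋀^Fin n]→ₗ[ℝ] ℝ) (v : Fin (n + 1) → E) :
    AlternatingMap.alternatizeUncurryFin f v =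
      ∑ i : Fin (n + 1), (-1 : ℝ) ^ (i : ℕ) * f (v i) (i.removeNth v) := by
  simp [AlternatingMap.alternatizeUncurryFin_apply, zsmul_eq_mul]

theorem map_sub_zero {m : ℕ} (P : E [⋀^Fin (m + 1)]→ₗ[ℝ] ℝ) (w : Fin (m + 1) → E) :
    P (fun i => if i = 0 then w 0 else w i - w 0) = P w := by
  classical
  have key : ∀ s : Finset (Fin (m + 1)), (0 : Fin (m + 1)) ∉ s →
      P (s.piecewise (fun i => w i - w 0) w) = P w := by
    intro s
    induction s using Finset.induction with
    | empty => simp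
    | @insert a s ha ih =>
      intro h0
      simp only [Finset.mem_insert, not_or] at h0
      have hp : (s.piecewise (fun i => w i - w 0) w) a = w a := by simp [ha]
      have hp0 : (s.piecewise (fun i => w i - w 0) w) 0 = w 0 := by simp [h0.2]
      rw [Finset.piecewise_insert, AlternatingMap.map_update_sub]
      have e1 : Function.update (s.piecewise (fun i => w i - w 0) w) a (w a) =
          s.piecewise (fun i => w i - w 0) w := by
        rw [Function.update_eq_self_iff]; exact hp.symm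
      have e2 : P (Function.update (s.piecewise (fun i => w i - w 0) w) a (w 0)) = 0 := by
        refine P.map_eq_zero_of_eq _ ?_ (Ne.symm h0.1)
        simp [hp0, h0.1]
      rw [e1, e2]
      rw [sub_zero, ih h0.2]
  have := key (Finset.univ.erase 0) (by simp)
  rw [← this]
  congr 1
  funext i
  by_cases hi : i = 0
  · subst hi; simp
  · simp [hi]

/-- The cone over a form on the homogenised space. -/
noncomputable def homog (Φ : E [⋀^Fin n]→ₗ[ℝ] ℝ) : (ℝ × E) [⋀^Fin (n + 1)]→ₗ[ℝ] ℝ :=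
  AlternatingMap.alternatizeUncurryFin
    ((LinearMap.fst ℝ ℝ E).smulRight (Φ.compLinearMap (LinearMap.snd ℝ ℝ E)))

theorem homog_apply (Φ : E [⋀^Fin n]→ₗ[ℝ] ℝ) (v : Fin (n + 1) → ℝ × E) :
    homog Φ v = ∑ i : Fin (n + 1), (-1 : ℝ) ^ (i : ℕ) *
      ((v i).1 * Φ fun j => (v (i.succAbove j)).2) := by
  rw [homog, uncurry_apply]
  rfl

theorem homog_one (Φ : E [⋀^Fin n]→ₗ[ℝ] ℝ) (q : Fin (n + 1) → E) :
    homog Φ (fun i => ((1 : ℝ), q i)) = edge Φ q := by
  rw [← map_sub_zero, homog_apply, Fintype.sum_eq_single 0]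
  · simp [edge, Fin.succ_ne_zero]
  · intro i hi
    simp [hi]

theorem edge_eq_sum (Φ : E [⋀^Fin n]→ₗ[ℝ] ℝ) (q : Fin (n + 1) → E) :
    edge Φ q = ∑ i : Fin (n + 1), (-1 : ℝ) ^ (i : ℕ) * Φ (i.removeNth q) := by
  rw [← homog_one, homog_apply]
  simp
  rfl

theorem edge_perm (Φ : E [⋀^Fin n]→ₗ[ℝ] ℝ) (q : Fin (n + 1) → E) (σ : Equiv.Perm (Fin (n + 1))) :
    edge Φ (q ∘ σ) = ((Equiv.Perm.sign σ : ℤ) : ℝ) * edge Φ q := by
  rw [← homog_one, ← homog_one]
  have := (homog Φ).map_perm (fun i => ((1 : ℝ), q i)) σ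
  simp only [Units.smul_def, zsmul_eq_mul] at this
  exact this

/-- The alternating sum over the faces vanishes. -/
theorem sum_edge_removeNth (Φ : E [⋀^Fin n]→ₗ[ℝ] ℝ) (q : Fin (n + 2) → E) :
    ∑ i : Fin (n + 2), (-1 : ℝ) ^ (i : ℕ) * edge Φ (i.removeNth q) = 0 := by
  have h1 : ∀ i : Fin (n + 2), edge Φ (i.removeNth q) =
      homog Φ (i.removeNth fun i => ((1 : ℝ), q i)) := fun i => (homog_one Φ _).symm
  simp only [h1]
  rw [← edge_eq_sum, edge, homog_apply]
  refine Finset.sum_eq_zero fun i _ => ?_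
  simp

theorem edge_translate (Φ : E [⋀^Fin n]→ₗ[ℝ] ℝ) (q : Fin (n + 1) → E) (c : E) :
    edge Φ (fun i => c + q i) = edge Φ q := by
  simp [edge]

end Vale.P184.Winding
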