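import Vale.Agent.P184.Winding.Induced
import Vale.Agent.P184.Twist.Good

/-!
P184: the elements at which the coefficient is proved to vanish.
-/

namespace Vale.P184.Winding

universe u v

/-- Some linear representation in positive characteristic maps `g` to an element of infinite
order. -/
def InfiniteInCharP {G : Type u} [Group G] (g : G) : Prop :=
  ∃ (p : ℕ) (K : Type v) (_ : Field K) (_ : CharP K p) (n : ℕ) (ρ : G →* GL (Fin n) K),
    p ≠ 0 ∧ ¬ IsOfFinOrder (ρ g)

/-- `g` is good, or unipotently detected, or of infinite order in a positive characteristic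
representation. -/
def IsCovered {G : Type u} [Group G] (g : G) : Prop :=
  Twist.IsGood.{u, v} g ∨ UnipotentlyDetected g ∨ InfiniteInCharP.{u, v} g

/-- Unitriangular real representations separate `G` from the identity, in other words `G` is
residually a group of real unitriangular matrices. -/
def IsResiduallyUnitriangular (G : Type u) [Group G] : Prop :=
  ∀ g : G, g ≠ 1 → ∃ (n : ℕ) (ρ : G →* Matrix (Fin n) (Fin n) ℝ),
    (∀ (x : G) (i j : Fin n), j ≤ i → ρ x i j = if i = j then 1 else 0) ∧ ρ g ≠ 1

theorem IsResiduallyUnitriangular.not_isOfFinOrder {G : Type u} [Group G]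
    (h : IsResiduallyUnitriangular G) {g : G} (hg : g ≠ 1) : ¬ IsOfFinOrder g := by
  intro hfin
  obtain ⟨n, ρ, hρ, hne⟩ := h g hg
  refine map_pow_ne_one (ρ := ρ) hρ hne hfin.orderOf_pos ?_
  rw [pow_orderOf_eq_one, map_one]

theorem IsResiduallyUnitriangular.detected {G : Type u} [Group G]
    (h : IsResiduallyUnitriangular G) {g : G} (hg : g ≠ 1) : UnipotentlyDetected g := by
  obtain ⟨n, ρ, hρ, hne⟩ := h g hg
  exact ⟨⊤, 1, n, ρ.comp (Subgroup.subtype ⊤), ⟨g, Subgroup.mem_top g⟩,
    by rw [Subgroup.index_top]; exact one_ne_zero, one_pos, (pow_one g).symm, fun x => hρ x, hne⟩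

end Vale.P184.Winding
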