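import Vale.Agent.P184.Winding.Cone

/-!
P184: the forms built from an affine one-form `θ₀ + β(v, ·)`, and their simplex identities.
-/

namespace Vale.P184.Winding

open Fin

variable {E : Type*} [AddCommGroup E] [Module ℝ E]

/-- An affine one-form: its constant part and its linear part. -/
structure Form (E : Type*) [AddCommGroup E] [Module ℝ E] where
  /-- constant part -/
  θ : E →ₗ[ℝ] ℝ
  /-- linear part -/
  β : E →ₗ[ℝ] E →ₗ[ℝ] ℝ

namespace Form

/-- The exterior product of a covector and a form. -/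
noncomputable def wedge {n : ℕ} (t : E →ₗ[ℝ] ℝ) (Φ : E [⋀^Fin n]→ₗ[ℝ] ℝ) :
    E [⋀^Fin (n + 1)]→ₗ[ℝ] ℝ :=
  AlternatingMap.alternatizeUncurryFin (t.smulRight Φ)

theorem wedge_apply {n : ℕ} (t : E →ₗ[ℝ] ℝ) (Φ : E [⋀^Fin n]→ₗ[ℝ] ℝ) (v : Fin (n + 1) → E) :
    wedge t Φ v = ∑ i : Fin (n + 1), (-1 : ℝ) ^ (i : ℕ) * (t (v i) * Φ (i.removeNth v)) := by
  rw [wedge, uncurry_apply]
  rfl

variable (D : Form E)

/-- The linear part `v ↦ β v ∧ Φ`. -/
noncomputable def lift {n : ℕ} (Φ : E [⋀^Fin n]→ₗ[ℝ] ℝ) :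
    E →ₗ[ℝ] E [⋀^Fin (n + 1)]→ₗ[ℝ] ℝ where
  toFun x := wedge (D.β x) Φ
  map_add' x y := by
    ext v
    simp [wedge_apply, add_mul, mul_add, Finset.sum_add_distrib]
  map_smul' c x := by
    ext v
    simp [wedge_apply, Finset.mul_sum]
    exact Finset.sum_congr rfl fun i _ => by ring

/-- `Ω k`, proportional to the `k`-th power of the differential. -/
noncomputable def Om : (k : ℕ) → E [⋀^Fin (2 * k)]→ₗ[ℝ] ℝ
  | 0 => AlternatingMap.constOfIsEmpty ℝ E (Fin 0) 1
  | k + 1 => AlternatingMap.alternatizeUncurryFin (D.lift (Om k))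

theorem Om_zero (v : Fin (2 * 0) → E) : D.Om 0 v = 1 := by rw [Om]; rfl

theorem Om_succ (k : ℕ) (v : Fin (2 * k + 1 + 1) → E) :
    D.Om (k + 1) v = ∑ i : Fin (2 * k + 1 + 1), (-1 : ℝ) ^ (i : ℕ) *
      wedge (D.β (v i)) (D.Om k) (i.removeNth v) := by
  rw [Om, uncurry_apply]
  rfl

/-- Invariance of `Ω` under a linear map preserving the linear part. -/
theorem Om_map {E' : Type*} [AddCommGroup E'] [Module ℝ E'] (D' : Form E') (T : E →ₗ[ℝ] E')
    (hβ : ∀ x y, D'.β (T x) (T y) = D.β x y) :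
    ∀ (k : ℕ) (v : Fin (2 * k) → E), D'.Om k (fun i => T (v i)) = D.Om k v := by
  intro k
  induction k with
  | zero => exact fun v => rfl
  | succ k ih =>
    intro v
    rw [Om_succ, Om_succ]
    refine Finset.sum_congr rfl fun i _ => ?_
    congr 1
    rw [wedge_apply, wedge_apply]
    refine Finset.sum_congr rfl fun j _ => ?_
    congr 1
    show D'.β (T (v i)) (T (i.removeNth v j)) * D'.Om k (fun l => T (j.removeNth (i.removeNth v) l)) = _
    rw [hβ, ih]

/-- A vertical vector: the linear part does not see it. -/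
def Vert (U : E) : Prop := ∀ x, D.β x U = 0 ∧ D.β U x = 0

variable {D}

theorem beta_shift {U : E} (hU : D.Vert U) (x y : E) (a b : ℝ) :
    D.β (x + a • U) (y + b • U) = D.β x y := by
  simp [(hU x).1, (hU y).2, (hU U).1]

theorem Om_shift {U : E} (hU : D.Vert U) :
    ∀ (k : ℕ) (v : Fin (2 * k) → E) (ε : Fin (2 * k) → ℝ),
      D.Om k (fun i => v i + ε i • U) = D.Om k v := by
  intro k
  induction k with
  | zero => exact fun v ε => rfl
  | succ k ih =>
    intro v ε
    rw [Om_succ, Om_succ]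
    refine Finset.sum_congr rfl fun i _ => ?_
    congr 1
    rw [wedge_apply, wedge_apply]
    refine Finset.sum_congr rfl fun j _ => ?_
    congr 1
    show D.β (v i + ε i • U) (v (i.succAbove j) + ε (i.succAbove j) • U) *
      D.Om k (fun l => j.removeNth (i.removeNth v) l + j.removeNth (i.removeNth ε) l • U) = _
    rw [beta_shift hU, ih]
    rfl

theorem Om_eq_zero [FiniteDimensional ℝ E] {k : ℕ} (hk : Module.finrank ℝ E < 2 * k) :
    D.Om k = 0 := by
  ext v
  refine AlternatingMap.map_linearDependent _ v fun hv => ?_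
  have := hv.fintype_card_le_finrank
  simp at this
  omega

variable (D)

/-- The form evaluated on a simplex with `2 k + 1` vertices. -/
noncomputable def F (k : ℕ) (q : Fin (2 * k + 1) → E) : ℝ := edge (D.Om k) q

/-- The covector attached to a simplex with `2 k + 2` vertices. -/
noncomputable def cov (k : ℕ) (q : Fin (2 * k + 1 + 1) → E) : E →ₗ[ℝ] ℝ :=
  (2 * (k : ℝ) + 2) • D.θ + D.β (∑ i, q i)

/-- The primitive evaluated on a simplex with `2 k + 2` vertices. -/
noncomputable def L (k : ℕ) (q : Fin (2 * k + 1 + 1) → E) : ℝ :=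
  edge (wedge (D.cov k q) (D.Om k)) q

theorem F_zero (q : Fin (2 * 0 + 1) → E) : D.F 0 q = 1 := D.Om_zero _

/-- The alternating sum of the primitives over the faces is the next form. -/
theorem sum_L_removeNth (k : ℕ) (q : Fin (2 * k + 1 + 1 + 1) → E) :
    ∑ i : Fin (2 * k + 1 + 1 + 1), (-1 : ℝ) ^ (i : ℕ) * D.L k (i.removeNth q) = D.F (k + 1) q := by
  set A : E →ₗ[ℝ] E [⋀^Fin (2 * k + 1)]→ₗ[ℝ] ℝ := D.lift (D.Om k) with hA
  set Φ := wedge ((2 * (k : ℝ) + 2) • D.θ + D.β (∑ i, q i)) (D.Om k) with hΦ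
  have hL : ∀ i : Fin (2 * k + 1 + 1 + 1), D.L k (i.removeNth q) =
      edge Φ (i.removeNth q) - edge (A (q i - q 0)) (i.removeNth q) -
        edge (A (q 0)) (i.removeNth q) := by
    intro i
    have hs : ∑ j, i.removeNth q j = (∑ j, q j) - q i := by
      rw [Fin.sum_univ_succAbove q i]
      simp [Fin.removeNth_apply]
    simp only [L, cov, edge, hs, hΦ, hA, map_sub, AlternatingMap.sub_apply, lift,
      LinearMap.coe_mk, AddHom.coe_mk, wedge_apply]
    simp only [← Finset.sum_sub_distrib]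
    refine Finset.sum_congr rfl fun j _ => ?_
    simp only [LinearMap.add_apply, LinearMap.sub_apply]
    ring
  simp only [hL, mul_sub, Finset.sum_sub_distrib, sum_edge_removeNth]
  rw [Fin.sum_univ_succ]
  simp only [F, edge, Fin.coe_ofNat_eq_mod, Nat.zero_mod, sub_self, map_zero,
    AlternatingMap.zero_apply, mul_zero, zero_add, zero_sub, sub_zero]
  rw [Om, uncurry_apply, ← Finset.sum_neg_distrib, ← hA]
  refine Finset.sum_congr rfl fun j _ => ?_
  rw [Fin.val_succ, pow_succ, mul_neg_one, neg_mul, neg_neg]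
  congr 2
  funext l
  simp [Fin.removeNth_apply, Fin.succ_succAbove_succ]

theorem F_shift {U : E} (hU : D.Vert U) (k : ℕ) (q : Fin (2 * k + 1) → E)
    (ε : Fin (2 * k + 1) → ℝ) : D.F k (fun i => q i + ε i • U) = D.F k q := by
  rw [F, F, edge, edge, ← Om_shift hU k (fun j => q j.succ - q 0) fun j => ε j.succ - ε 0]
  congr 1
  funext j
  rw [sub_smul]
  abel

/-- Moving the vertices vertically changes the primitive by face values of the form. -/
theorem L_shift {U : E} (hU : D.Vert U) (hθ : D.θ U = 1) (k : ℕ)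
    (q : Fin (2 * k + 1 + 1) → E) (ε : Fin (2 * k + 1 + 1) → ℝ) :
    D.L k (fun i => q i + ε i • U) = D.L k q -
      (2 * (k : ℝ) + 2) *
        ∑ i : Fin (2 * k + 1 + 1), (-1 : ℝ) ^ (i : ℕ) * (ε i * D.F k (i.removeNth q)) := by
  have hc : D.cov k (fun i => q i + ε i • U) = D.cov k q := by
    refine LinearMap.ext fun y => ?_
    simp [cov, Finset.sum_add_distrib, (hU y).2]
  have hU' : D.cov k q U = 2 * (k : ℝ) + 2 := by simp [cov, hθ, (hU _).1]
  set e : Fin (2 * k + 1) → E := fun j => q j.succ - q 0 with he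
  have h1 : (fun j : Fin (2 * k + 1) => (q j.succ + ε j.succ • U) - (q 0 + ε 0 • U)) =
      fun j => e j + (ε j.succ - ε 0) • U := by
    funext j; simp [he, sub_smul]; abel
  have h2 : ∀ j : Fin (2 * k + 1), D.Om k (j.removeNth e) = D.F k (j.succ.removeNth q) := by
    intro j
    refine congrArg (D.Om k) (funext fun l => ?_)
    simp [he, Fin.removeNth_apply, Fin.succ_succAbove_succ]
  have hL : D.L k (fun i => q i + ε i • U) = D.L k q +
      (2 * (k : ℝ) + 2) * ∑ j : Fin (2 * k + 1),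
        (-1 : ℝ) ^ (j : ℕ) * ((ε j.succ - ε 0) * D.F k (j.succ.removeNth q)) := by
    simp only [L, edge, hc, h1, wedge_apply]
    rw [Finset.mul_sum, ← Finset.sum_add_distrib]
    refine Finset.sum_congr rfl fun j _ => ?_
    have h3 : D.Om k (j.removeNth fun j => e j + (ε j.succ - ε 0) • U) = D.Om k (j.removeNth e) :=
      Om_shift hU k (j.removeNth e) (j.removeNth fun l => ε l.succ - ε 0)
    rw [h3, map_add, map_smul, hU', h2, smul_eq_mul]
    simp only [he]
    ring
  have h0 := sum_edge_removeNth (D.Om k) q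
  rw [Fin.sum_univ_succ] at h0
  rw [hL, Fin.sum_univ_succ (f := fun i : Fin (2 * k + 1 + 1) =>
    (-1 : ℝ) ^ (i : ℕ) * (ε i * D.F k (i.removeNth q)))]
  simp only [Fin.coe_ofNat_eq_mod, Nat.zero_mod, pow_zero, one_mul, Fin.val_succ, pow_succ] at h0 ⊢
  simp only [mul_neg_one, neg_mul, Finset.sum_neg_distrib] at h0 ⊢
  simp only [mul_sub, sub_mul, Finset.sum_sub_distrib]
  have h5 : ∑ x : Fin (2 * k + 1), (-1 : ℝ) ^ (x : ℕ) * (ε 0 * D.F k (x.succ.removeNth q)) =
      ε 0 * ∑ x : Fin (2 * k + 1), (-1 : ℝ) ^ (x : ℕ) * D.F k (x.succ.removeNth q) := by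
    rw [Finset.mul_sum]; exact Finset.sum_congr rfl fun x _ => by ring
  rw [h5]
  simp only [F] at h0 ⊢
  linear_combination (2 * (k : ℝ) + 2) * ε 0 * h0

theorem F_perm (k : ℕ) (q : Fin (2 * k + 1) → E) (σ : Equiv.Perm (Fin (2 * k + 1))) :
    D.F k (q ∘ σ) = ((Equiv.Perm.sign σ : ℤ) : ℝ) * D.F k q := edge_perm _ q σ

theorem L_perm (k : ℕ) (q : Fin (2 * k + 1 + 1) → E) (σ : Equiv.Perm (Fin (2 * k + 1 + 1))) :
    D.L k (q ∘ σ) = ((Equiv.Perm.sign σ : ℤ) : ℝ) * D.L k q := by
  rw [L, edge_perm, L, cov, cov]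
  simp only [Function.comp_apply, Equiv.sum_comp σ q]

/-- An affine map carrying one form to the other. -/
structure Maps (T : E →ₗ[ℝ] E) (c : E) (D D' : Form E) : Prop where
  β_eq : ∀ x y, D'.β (T x) (T y) = D.β x y
  θ_eq : ∀ y, D'.θ (T y) + D'.β c (T y) = D.θ y

theorem F_map {T : E →ₗ[ℝ] E} {c : E} {D' : Form E} (h : Maps T c D D') (k : ℕ)
    (q : Fin (2 * k + 1) → E) : D'.F k (fun i => c + T (q i)) = D.F k q := by
  rw [F, edge_translate, F, edge, edge, ← Om_map D D' T h.β_eq k fun j => q j.succ - q 0]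
  simp

theorem L_map {T : E →ₗ[ℝ] E} {c : E} {D' : Form E} (h : Maps T c D D') (k : ℕ)
    (q : Fin (2 * k + 1 + 1) → E) : D'.L k (fun i => c + T (q i)) = D.L k q := by
  have hc : ∀ y, D'.cov k (fun i => c + T (q i)) (T y) = D.cov k q y := by
    intro y
    simp only [cov, Finset.sum_add_distrib, Finset.sum_const, Finset.card_univ, Fintype.card_fin,
      ← map_sum, LinearMap.add_apply, LinearMap.smul_apply, map_add, smul_eq_mul, h.β_eq,
      map_nsmul, nsmul_eq_mul]
    rw [← h.θ_eq y]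
    push_cast
    ring
  simp only [L, edge, add_sub_add_left_eq_sub, ← map_sub, wedge_apply]
  refine Finset.sum_congr rfl fun j _ => ?_
  rw [hc]
  congr 2
  exact Om_map D D' T h.β_eq k (j.removeNth fun l => q l.succ - q 0)

end Form

end Vale.P184.Winding
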