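import Mathlib

/-!
P184: upper unitriangular matrices: window products, powers and polynomial growth.
-/

namespace Vale.P184.Winding

open Finset

variable {n : ℕ}

/-- Upper unitriangular. -/
def IsUni (A : Matrix (Fin n) (Fin n) ℝ) : Prop := ∀ i j, j ≤ i → A i j = if i = j then 1 else 0

theorem IsUni.diag {A : Matrix (Fin n) (Fin n) ℝ} (h : IsUni A) (i : Fin n) : A i i = 1 := by
  simpa using h i i le_rfl

theorem IsUni.below {A : Matrix (Fin n) (Fin n) ℝ} (h : IsUni A) {i j : Fin n} (hij : j < i) :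
    A i j = 0 := by simpa [hij.ne'] using h i j hij.le

theorem mul_entry {A B : Matrix (Fin n) (Fin n) ℝ} (hA : IsUni A) (hB : IsUni B) {i j : Fin n}
    (hij : i < j) : (A * B) i j = A i j + B i j + ∑ c ∈ Finset.Ioo i j, A i c * B c j := by
  rw [Matrix.mul_apply, ← Finset.sum_subset (Finset.subset_univ (insert i (insert j (Ioo i j))))]
  · rw [sum_insert (by simp [hij.ne]), sum_insert (by simp), hA.diag, hB.diag]
    ring
  · intro c _ hc
    simp only [mem_insert, mem_Ioo, not_or, not_and, not_lt] at hc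
    rcases lt_or_gt_of_ne hc.1 with h | h
    · simp [hA.below h]
    · simp [hB.below (lt_of_le_of_ne (hc.2.2 h) (Ne.symm hc.2.1))]

/-- All entries at distance less than `d` above the diagonal vanish. -/
def Low (d : ℕ) (A : Matrix (Fin n) (Fin n) ℝ) : Prop :=
  ∀ i j : Fin n, i < j → (j : ℕ) - i < d → A i j = 0

theorem Low.of_mul_eq_one {d : ℕ} {A B : Matrix (Fin n) (Fin n) ℝ} (hA : IsUni A) (hB : IsUni B)
    (h : Low d A) (hAB : B * A = 1) : Low d B := by
  intro i j hij hd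
  have e := mul_entry hB hA hij
  rw [hAB, Matrix.one_apply_ne hij.ne, h i j hij hd, Finset.sum_eq_zero fun c hc => ?_] at e
  · linarith
  · rw [Finset.mem_Ioo, Fin.lt_def, Fin.lt_def] at hc
    rw [Fin.lt_def] at hij
    rw [h c j (Fin.lt_def.2 hc.2) (by omega), mul_zero]

theorem mul_entry_low {d : ℕ} {A B : Matrix (Fin n) (Fin n) ℝ} (hA : IsUni A) (hB : IsUni B)
    {i j : Fin n} (hij : i < j) (hd : (j : ℕ) - i ≤ d) (h : Low d A ∨ Low d B) :
    (A * B) i j = A i j + B i j := by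
  rw [mul_entry hA hB hij, Finset.sum_eq_zero fun c hc => ?_, add_zero]
  rw [Finset.mem_Ioo, Fin.lt_def, Fin.lt_def] at hc
  rcases h with h | h
  · rw [h i c (Fin.lt_def.2 hc.1) (by omega), zero_mul]
  · rw [h c j (Fin.lt_def.2 hc.2) (by omega), mul_zero]

variable {H : Type*} [Group H] {ρ : H →* Matrix (Fin n) (Fin n) ℝ}

theorem pow_entry (hρ : ∀ h, IsUni (ρ h)) {d : ℕ} {k : H} (hk : Low d (ρ k)) {i j : Fin n}
    (hij : i < j) (hd : (j : ℕ) - i ≤ d) (t : ℕ) : ρ (k ^ t) i j = t * ρ k i j := by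
  induction t with
  | zero => simp [Matrix.one_apply_ne hij.ne]
  | succ t ih =>
    rw [pow_succ, map_mul, mul_entry_low (hρ _) (hρ _) hij hd (Or.inr hk), ih]
    push_cast; ring

theorem conj_entry (hρ : ∀ h, IsUni (ρ h)) {d : ℕ} {k : H} (a : H) (hk : Low d (ρ k))
    (hk' : Low d (ρ (a * k * a⁻¹))) {i j : Fin n} (hij : i < j) (hd : (j : ℕ) - i ≤ d) :
    ρ (a * k * a⁻¹) i j = ρ k i j := by
  have e : a * k * a⁻¹ * a = a * k := by group
  have h1 := mul_entry_low (hρ (a * k * a⁻¹)) (hρ a) hij hd (Or.inl hk')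
  have h2 := mul_entry_low (hρ a) (hρ k) hij hd (Or.inr hk)
  rw [← map_mul, e] at h1
  rw [← map_mul, h1] at h2
  linarith

theorem low_mono {d d' : ℕ} (h : d' ≤ d) {A : Matrix (Fin n) (Fin n) ℝ} (hA : Low d A) : Low d' A :=
  fun i j hij hd => hA i j hij (lt_of_lt_of_le hd h)

/-- A non-identity unitriangular matrix has a first nonvanishing superdiagonal. -/
theorem exists_first {A : Matrix (Fin n) (Fin n) ℝ} (hA : IsUni A) (h : A ≠ 1) :
    ∃ d, Low d A ∧ ∃ i j : Fin n, i < j ∧ (j : ℕ) - i = d ∧ A i j ≠ 0 := by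
  classical
  have hex : ∃ d, ∃ i j : Fin n, i < j ∧ (j : ℕ) - i = d ∧ A i j ≠ 0 := by
    by_contra hne
    push Not at hne
    refine h (Matrix.ext fun i j => ?_)
    rcases le_or_gt j i with hji | hij
    · rw [hA i j hji, Matrix.one_apply]
    · rw [hne _ i j hij rfl, Matrix.one_apply_ne hij.ne]
  refine ⟨Nat.find hex, fun i j hij hd => ?_, Nat.find_spec hex⟩
  by_contra hne
  exact Nat.find_min hex hd ⟨i, j, hij, rfl, hne⟩

theorem map_pow_ne_one (hρ : ∀ h, IsUni (ρ h)) {k : H} (hk : ρ k ≠ 1) {t : ℕ} (ht : 0 < t) :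
    ρ (k ^ t) ≠ 1 := by
  obtain ⟨d, hl, i, j, hij, hd, hne⟩ := exists_first (hρ k) hk
  intro h
  have e := pow_entry hρ hl hij hd.le t
  rw [h, Matrix.one_apply_ne hij.ne] at e
  rcases mul_eq_zero.1 e.symm with h' | h'
  · exact (Nat.cast_ne_zero.2 ht.ne') h'
  · exact hne h'

theorem mul_bound {A B : Matrix (Fin n) (Fin n) ℝ} (hA : IsUni A) (hB : IsUni B) {C : ℝ} {t : ℝ}
    (hC : 0 ≤ C) (ht : 0 ≤ t) (hAC : ∀ i j, |A i j| ≤ C)
    (hBt : ∀ i j, i ≤ j → |B i j| ≤ (1 + (n + 1) * C * t) ^ ((j : ℕ) - i)) (i j : Fin n) (hij : i ≤ j) :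
    |(A * B) i j| ≤ (1 + (n + 1) * C * (t + 1)) ^ ((j : ℕ) - i) := by
  set T := ((n : ℝ) + 1) * C with hT
  have hT0 : 0 ≤ T := by positivity
  have h1 : (1 : ℝ) ≤ 1 + T * t := by nlinarith
  rcases eq_or_lt_of_le hij with rfl | hlt
  · rw [Matrix.mul_apply, Finset.sum_eq_single i (fun c _ hc => ?_) (by simp)]
    · simp [hA.diag, hB.diag]
    · rcases lt_or_gt_of_ne hc with h | h
      · simp [hA.below h]
      · simp [hB.below h]
  · obtain ⟨e, he⟩ : ∃ e, (j : ℕ) - i = e + 1 :=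
      ⟨(j : ℕ) - i - 1, by rw [Fin.lt_def] at hlt; omega⟩
    rw [mul_entry hA hB hlt, he]
    have hbij := hBt i j hij
    rw [he] at hbij
    have hsum : |∑ c ∈ Ioo i j, A i c * B c j| ≤ n * (C * (1 + T * t) ^ e) := by
      refine (Finset.abs_sum_le_sum_abs _ _).trans ((Finset.sum_le_card_nsmul _ _ (C * (1 + T * t) ^ e)
        fun c hc => ?_).trans ?_)
      · rw [Finset.mem_Ioo, Fin.lt_def, Fin.lt_def] at hc
        rw [abs_mul]
        refine mul_le_mul (hAC i c) ((hBt c j (by rw [Fin.le_def]; omega)).trans ?_) (abs_nonneg _) hC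
        exact pow_le_pow_right₀ h1 (by omega)
      · rw [nsmul_eq_mul]
        refine mul_le_mul_of_nonneg_right ?_ (by positivity)
        have := Finset.card_le_univ (Ioo i j)
        rw [Fintype.card_fin] at this
        exact_mod_cast this
    have hA1 : |A i j| ≤ C * (1 + T * t) ^ e := (hAC i j).trans
      (le_mul_of_one_le_right hC (one_le_pow₀ h1))
    refine ((abs_add_le _ _).trans (add_le_add (abs_add_le _ _) le_rfl)).trans ?_
    calc |A i j| + |B i j| + |∑ c ∈ Ioo i j, A i c * B c j|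
        ≤ C * (1 + T * t) ^ e + (1 + T * t) ^ (e + 1) + n * (C * (1 + T * t) ^ e) :=
          add_le_add (add_le_add hA1 hbij) hsum
      _ = (1 + T * t) ^ e * (1 + T * (t + 1)) := by rw [pow_succ, hT]; ring
      _ ≤ (1 + T * (t + 1)) ^ (e + 1) := by
          rw [pow_succ]
          exact mul_le_mul_of_nonneg_right (pow_le_pow_left₀ (by linarith) (by nlinarith) e)
            (by nlinarith)

end Vale.P184.Winding
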