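import Vale.Agent.P184.Winding.Forms
import Vale.Agent.P184.Winding.Unipotent

/-!
P184: the affine action and the invariant one-form attached to a window of a unitriangular
representation.
-/

namespace Vale.P184.Winding

open Finset

variable {n : ℕ} {H : Type*} [Group H]

/-- The coordinate space of a window. -/
abbrev WSpace (n : ℕ) : Type := ℝ × (Fin n → ℝ) × (Fin n → ℝ)

variable (ρ : H →* Matrix (Fin n) (Fin n) ℝ) (a l : Fin n)

/-- Corner, row of the inverse and column, inside the window. -/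
noncomputable def wp (k : H) : WSpace n :=
  (ρ k a l, (fun c => if c ∈ Ioo a l then ρ k⁻¹ a c else 0),
    fun c => if c ∈ Ioo a l then ρ k c l else 0)

/-- The linear part of the action. -/
noncomputable def wT (k : H) : WSpace n →ₗ[ℝ] WSpace n where
  toFun v := (v.1 + ∑ c ∈ Ioo a l, ρ k a c * v.2.2 c,
    (fun c => if c ∈ Ioo a l then ∑ e ∈ Ioo a l, v.2.1 e * ρ k⁻¹ e c else 0),
    fun c => if c ∈ Ioo a l then ∑ e ∈ Ioo a l, ρ k c e * v.2.2 e else 0)
  map_add' v w := by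
    refine Prod.ext ?_ (Prod.ext (funext fun c => ?_) (funext fun c => ?_))
    · simp only [Prod.fst_add, Prod.snd_add, Pi.add_apply, mul_add, sum_add_distrib]; ring
    · simp only [Prod.snd_add, Prod.fst_add, Pi.add_apply, add_mul, sum_add_distrib]
      split_ifs <;> simp
    · simp only [Prod.snd_add, Pi.add_apply, mul_add, sum_add_distrib]
      split_ifs <;> simp
  map_smul' r v := by
    refine Prod.ext ?_ (Prod.ext (funext fun c => ?_) (funext fun c => ?_))
    · simp only [Prod.smul_fst, Prod.smul_snd, Pi.smul_apply, smul_eq_mul, RingHom.id_apply, mul_add,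
        mul_sum]
      exact congrArg (_ + ·) (sum_congr rfl fun x _ => by ring)
    · simp only [Prod.smul_fst, Prod.smul_snd, Pi.smul_apply, smul_eq_mul, RingHom.id_apply]
      split_ifs
      · rw [mul_sum]; exact sum_congr rfl fun x _ => by ring
      · simp
    · simp only [Prod.smul_snd, Pi.smul_apply, smul_eq_mul, RingHom.id_apply]
      split_ifs
      · rw [mul_sum]; exact sum_congr rfl fun x _ => by ring
      · simp

/-- The pairing of the row and the column. -/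
noncomputable def wβ : WSpace n →ₗ[ℝ] WSpace n →ₗ[ℝ] ℝ :=
  LinearMap.mk₂ ℝ (fun v w => ∑ c ∈ Ioo a l, v.2.1 c * w.2.2 c)
    (fun u v w => by simp [add_mul, sum_add_distrib])
    (fun r v w => by simp [mul_sum, mul_assoc])
    (fun u v w => by simp [mul_add, sum_add_distrib])
    (fun r v w => by simp [mul_sum, mul_left_comm])

variable {ρ a l} (hρ : ∀ h, IsUni (ρ h))
include hρ

theorem wp_mul (hal : a < l) (g y : H) :
    wp ρ a l (g * y) = wp ρ a l g + wT ρ a l g (wp ρ a l y) := by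
  refine Prod.ext ?_ (Prod.ext (funext fun c => ?_) (funext fun c => ?_))
  · show ρ (g * y) a l = ρ g a l + (ρ y a l + ∑ c ∈ Ioo a l, ρ g a c *
      if c ∈ Ioo a l then ρ y c l else 0)
    rw [map_mul, mul_entry (hρ g) (hρ y) hal, ← add_assoc]
    exact congrArg (_ + ·) (sum_congr rfl fun c hc => by rw [if_pos hc])
  · show (if c ∈ Ioo a l then ρ (g * y)⁻¹ a c else 0) =
      (if c ∈ Ioo a l then ρ g⁻¹ a c else 0) + (if c ∈ Ioo a l then
        ∑ e ∈ Ioo a l, (if e ∈ Ioo a l then ρ y⁻¹ a e else 0) * ρ g⁻¹ e c else 0)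
    split_ifs with hc
    · rw [mul_inv_rev, map_mul]
      have hac := (Finset.mem_Ioo.1 hc).1
      rw [mul_entry (hρ _) (hρ _) hac, add_comm (ρ y⁻¹ a c), add_assoc]
      congr 1
      have hsub : ∑ e ∈ Ioo a l, ρ y⁻¹ a e * ρ g⁻¹ e c =
          ∑ e ∈ insert c (Ioo a c), ρ y⁻¹ a e * ρ g⁻¹ e c := by
        refine (sum_subset (fun e he => ?_) fun e he hne => ?_).symm
        · simp only [mem_insert, Finset.mem_Ioo] at he ⊢
          rcases he with rfl | he
          · exact Finset.mem_Ioo.1 hc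
          · exact ⟨he.1, he.2.trans (Finset.mem_Ioo.1 hc).2⟩
        · simp only [mem_insert, Finset.mem_Ioo, not_or, not_and, not_lt] at hne
          rw [(hρ g⁻¹).below (lt_of_le_of_ne (hne.2 (Finset.mem_Ioo.1 he).1) (Ne.symm hne.1)),
            mul_zero]
      rw [hsub, sum_insert (by simp), (hρ g⁻¹).diag, mul_one]
    · simp
  · show (if c ∈ Ioo a l then ρ (g * y) c l else 0) =
      (if c ∈ Ioo a l then ρ g c l else 0) + (if c ∈ Ioo a l then
        ∑ e ∈ Ioo a l, ρ g c e * (if e ∈ Ioo a l then ρ y e l else 0) else 0)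
    split_ifs with hc
    · rw [map_mul, mul_entry (hρ _) (hρ _) (Finset.mem_Ioo.1 hc).2, add_assoc]
      congr 1
      have hsub : ∑ e ∈ Ioo a l, ρ g c e * ρ y e l =
          ∑ e ∈ insert c (Ioo c l), ρ g c e * ρ y e l := by
        refine (sum_subset (fun e he => ?_) fun e he hne => ?_).symm
        · simp only [mem_insert, Finset.mem_Ioo] at he ⊢
          rcases he with rfl | he
          · exact Finset.mem_Ioo.1 hc
          · exact ⟨(Finset.mem_Ioo.1 hc).1.trans he.1, he.2⟩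
        · simp only [mem_insert, Finset.mem_Ioo, not_or, not_and, not_lt] at hne
          have hec : e < c := by
            rcases lt_or_gt_of_ne hne.1 with h | h
            · exact h
            · exact absurd (Finset.mem_Ioo.1 he).2 (not_lt.2 (hne.2 h))
          rw [(hρ g).below hec, zero_mul]
      rw [hsub, sum_insert (by simp), (hρ g).diag, one_mul]
    · simp

theorem window_inv (g : H) {e f : Fin n} (he : e ∈ Ioo a l) (hf : f ∈ Ioo a l) :
    ∑ c ∈ Ioo a l, ρ g⁻¹ e c * ρ g c f = if e = f then 1 else 0 := by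
  have h1 : (ρ g⁻¹ * ρ g) e f = if e = f then 1 else 0 := by
    rw [← map_mul, inv_mul_cancel, map_one, Matrix.one_apply]
  rw [← h1, Matrix.mul_apply]
  refine sum_subset (subset_univ _) fun c _ hc => ?_
  simp only [Finset.mem_Ioo, not_and, not_lt] at hc
  by_cases hac : a < c
  · rw [(hρ g).below (lt_of_lt_of_le (Finset.mem_Ioo.1 hf).2 (hc hac)), mul_zero]
  · rw [(hρ g⁻¹).below (lt_of_le_of_lt (not_lt.1 hac) (Finset.mem_Ioo.1 he).1), zero_mul]

theorem wβ_wT (g : H) (v w : WSpace n) :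
    wβ a l (wT ρ a l g v) (wT ρ a l g w) = wβ a l v w := by
  show ∑ c ∈ Ioo a l, (if c ∈ Ioo a l then ∑ e ∈ Ioo a l, v.2.1 e * ρ g⁻¹ e c else 0) *
      (if c ∈ Ioo a l then ∑ f ∈ Ioo a l, ρ g c f * w.2.2 f else 0) = ∑ c ∈ Ioo a l, v.2.1 c * w.2.2 c
  rw [sum_congr rfl fun c hc => by rw [if_pos hc, if_pos hc, Finset.sum_mul_sum]]
  rw [sum_comm]
  refine sum_congr rfl fun e he => ?_
  rw [sum_comm, sum_eq_single e]
  · rw [show (fun c => v.2.1 e * ρ g⁻¹ e c * (ρ g c e * w.2.2 e)) =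
        fun c => (v.2.1 e * w.2.2 e) * (ρ g⁻¹ e c * ρ g c e) from funext fun c => by ring,
      ← mul_sum, window_inv hρ g he he, if_pos rfl, mul_one]
  · intro f hf hfe
    rw [show (fun c => v.2.1 e * ρ g⁻¹ e c * (ρ g c f * w.2.2 f)) =
        fun c => (v.2.1 e * w.2.2 f) * (ρ g⁻¹ e c * ρ g c f) from funext fun c => by ring,
      ← mul_sum, window_inv hρ g he hf, if_neg (Ne.symm hfe), mul_zero]
  · exact fun h => absurd he h

theorem wθ_wT (g : H) (v : WSpace n) :
    (wT ρ a l g v).1 + wβ a l (wp ρ a l g) (wT ρ a l g v) = v.1 := by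
  show v.1 + ∑ c ∈ Ioo a l, ρ g a c * v.2.2 c +
    ∑ c ∈ Ioo a l, (if c ∈ Ioo a l then ρ g⁻¹ a c else 0) *
      (if c ∈ Ioo a l then ∑ f ∈ Ioo a l, ρ g c f * v.2.2 f else 0) = v.1
  have e : ∑ c ∈ Ioo a l, (if c ∈ Ioo a l then ρ g⁻¹ a c else 0) *
      (if c ∈ Ioo a l then ∑ f ∈ Ioo a l, ρ g c f * v.2.2 f else 0) =
      ∑ c ∈ Ioo a l, ∑ f ∈ Ioo a l, ρ g⁻¹ a c * (ρ g c f * v.2.2 f) :=
    sum_congr rfl fun c hc => by rw [if_pos hc, if_pos hc, mul_sum]
  rw [e, sum_comm, add_assoc, ← sum_add_distrib, sum_eq_zero fun f hf => ?_, add_zero]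
  have haf := (Finset.mem_Ioo.1 hf).1
  have h1 := mul_entry (hρ g⁻¹) (hρ g) haf
  rw [← map_mul, inv_mul_cancel, map_one, Matrix.one_apply_ne haf.ne] at h1
  have h2 : ∑ c ∈ Ioo a l, ρ g⁻¹ a c * (ρ g c f * v.2.2 f) =
      (ρ g⁻¹ a f + ∑ c ∈ Ioo a f, ρ g⁻¹ a c * ρ g c f) * v.2.2 f := by
    rw [show ρ g⁻¹ a f + ∑ c ∈ Ioo a f, ρ g⁻¹ a c * ρ g c f =
      ∑ c ∈ insert f (Ioo a f), ρ g⁻¹ a c * ρ g c f by
        rw [sum_insert (by simp), (hρ g).diag, mul_one], sum_mul]
    refine (sum_congr rfl fun c _ => by ring).trans (sum_subset (fun c hc => ?_) fun c hc hne => ?_).symm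
    · simp only [mem_insert, Finset.mem_Ioo] at hc ⊢
      rcases hc with rfl | hc
      · exact Finset.mem_Ioo.1 hf
      · exact ⟨hc.1, hc.2.trans (Finset.mem_Ioo.1 hf).2⟩
    · simp only [mem_insert, Finset.mem_Ioo, not_or, not_and, not_lt] at hne
      rw [(hρ g).below (lt_of_le_of_ne (hne.2 (Finset.mem_Ioo.1 hc).1) (Ne.symm hne.1)), mul_zero,
        zero_mul]
  rw [h2]
  have h3 : ρ g⁻¹ a f + ∑ c ∈ Ioo a f, ρ g⁻¹ a c * ρ g c f = -ρ g a f := by linarith
  rw [h3]
  ring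

/-- A corner element translates along the vertical direction. -/
theorem wp_corner_mul (hal : a < l) {k : H} (hk : Low ((l : ℕ) - a) (ρ k)) (y : H) :
    wp ρ a l (k * y) = wp ρ a l y + (ρ k a l, 0, 0) := by
  have hk' : Low ((l : ℕ) - a) (ρ k⁻¹) :=
    hk.of_mul_eq_one (hρ k) (hρ k⁻¹) (by rw [← map_mul, inv_mul_cancel, map_one])
  have hrow : ∀ c ∈ Ioo a l, ρ k a c = 0 ∧ ρ k⁻¹ a c = 0 ∧ ρ k c l = 0 := fun c hc => by
    rw [Finset.mem_Ioo, Fin.lt_def, Fin.lt_def] at hc
    exact ⟨hk a c (Fin.lt_def.2 hc.1) (by omega), hk' a c (Fin.lt_def.2 hc.1) (by omega),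
      hk c l (Fin.lt_def.2 hc.2) (by omega)⟩
  have hin : ∀ (m : H), Low ((l : ℕ) - a) (ρ m) → ∀ c ∈ Ioo a l, ∀ e ∈ Ioo a l,
      ρ m c e = if c = e then 1 else 0 := fun m hm c hc e he => by
    rcases le_or_gt e c with h | h
    · exact hρ m c e h
    · rw [if_neg h.ne]
      simp only [Finset.mem_Ioo, Fin.lt_def] at hc he h
      exact hm c e (Fin.lt_def.2 h) (by omega)
  rw [wp_mul hρ hal]
  refine Prod.ext ?_ (Prod.ext (funext fun c => ?_) (funext fun c => ?_))
  · show ρ k a l + (ρ y a l + ∑ c ∈ Ioo a l, ρ k a c * _) = ρ y a l + ρ k a l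
    rw [sum_eq_zero fun c hc => by rw [(hrow c hc).1, zero_mul]]
    ring
  · show (if c ∈ Ioo a l then ρ k⁻¹ a c else 0) + (if c ∈ Ioo a l then
      ∑ e ∈ Ioo a l, (wp ρ a l y).2.1 e * ρ k⁻¹ e c else 0) = (wp ρ a l y).2.1 c + 0
    by_cases hc : c ∈ Ioo a l
    · rw [if_pos hc, if_pos hc, (hrow c hc).2.1,
        sum_congr rfl fun e he => by rw [hin k⁻¹ hk' e he c hc]]
      simp [hc]
    · rw [if_neg hc, if_neg hc]; simp only [wp, if_neg hc]
  · show (if c ∈ Ioo a l then ρ k c l else 0) + (if c ∈ Ioo a l then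
      ∑ e ∈ Ioo a l, ρ k c e * (wp ρ a l y).2.2 e else 0) = (wp ρ a l y).2.2 c + 0
    by_cases hc : c ∈ Ioo a l
    · rw [if_pos hc, if_pos hc, (hrow c hc).2.2, sum_congr rfl fun e he => by rw [hin k hk c hc e he]]
      simp [hc]
    · rw [if_neg hc, if_neg hc]; simp only [wp, if_neg hc]

end Vale.P184.Winding
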