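import Vale.Agent.P184.Winding.Apply
import Vale.Agent.P184.Winding.Window

/-!
P184: induction from a normal subgroup of finite index, and vanishing at unipotently detected
elements.
-/

namespace Vale.P184.Winding

open Finset

variable {G : Type*} [Group G] {K : Subgroup G} [hKn : K.Normal] {n : ℕ}

/-- The cocycle of the coset action. -/
noncomputable def cc (h : G) (j : G ⧸ K) : K :=
  ⟨(h • j).out⁻¹ * h * j.out, by
    rw [mul_assoc, ← QuotientGroup.eq, QuotientGroup.out_eq']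
    show h • j = ((h * j.out : G) : G ⧸ K)
    conv_lhs => rw [← QuotientGroup.out_eq' j]
    rfl⟩

omit hKn in
theorem cc_mul (h y : G) (j : G ⧸ K) : cc (h * y) j = cc h (y • j) * cc y j := by
  apply Subtype.ext
  simp [cc, mul_smul, mul_assoc]

omit hKn in
theorem cc_one (j : G ⧸ K) : cc 1 j = (1 : K) := by
  apply Subtype.ext
  simp [cc]

theorem smul_of_mem {k : G} (hk : k ∈ K) (j : G ⧸ K) : k • j = j := by
  induction j using QuotientGroup.induction_on with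
  | H a =>
    show ((k * a : G) : G ⧸ K) = (a : G ⧸ K)
    rw [QuotientGroup.eq, mul_inv_rev]
    simpa [mul_assoc] using hKn.conj_mem _ (inv_mem hk) a⁻¹

theorem cc_of_mem {k : G} (hk : k ∈ K) (j : G ⧸ K) : ((cc k j : K) : G) = j.out⁻¹ * k * j.out := by
  show (k • j).out⁻¹ * k * j.out = _
  rw [smul_of_mem hk]

variable [K.FiniteIndex] {ρ : K →* Matrix (Fin n) (Fin n) ℝ} {a l : Fin n} {g : G} {m : ℕ}

noncomputable instance : Fintype (G ⧸ K) := Subgroup.fintypeQuotientOfFiniteIndex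

/-- The corner entry of a conjugate of a power. -/
noncomputable def wgt (ρ : K →* Matrix (Fin n) (Fin n) ℝ) (a l : Fin n) (m : ℕ) (x : G)
    (j : G ⧸ K) : ℝ :=
  ρ (cc (x ^ m) j) a l

/-- The normalised weights. -/
noncomputable def nwt (ρ : K →* Matrix (Fin n) (Fin n) ℝ) (a l : Fin n) (m : ℕ) (x : G)
    (j : G ⧸ K) : ℝ :=
  (m : ℝ) * wgt ρ a l m x j / ∑ i, wgt ρ a l m x i ^ 2

/-- The induced orbit map. -/
noncomputable def ip (ρ : K →* Matrix (Fin n) (Fin n) ℝ) (a l : Fin n) (y : G) (j : G ⧸ K) :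
    WSpace n :=
  wp ρ a l (cc y (y⁻¹ • j))

/-- The induced linear part. -/
noncomputable def iT (ρ : K →* Matrix (Fin n) (Fin n) ℝ) (a l : Fin n) (h : G) :
    (G ⧸ K → WSpace n) →ₗ[ℝ] (G ⧸ K → WSpace n) :=
  LinearMap.pi fun j => (wT ρ a l (cc h (h⁻¹ • j))).comp (LinearMap.proj (h⁻¹ • j))

/-- The induced form. -/
noncomputable def iForm (ρ : K →* Matrix (Fin n) (Fin n) ℝ) (a l : Fin n) (m : ℕ) (x : G) :
    Form (G ⧸ K → WSpace n) where
  θ := ∑ j, nwt ρ a l m x j • (LinearMap.fst ℝ ℝ _).comp (LinearMap.proj j)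
  β := ∑ j, nwt ρ a l m x j • (wβ a l).compl₁₂ (LinearMap.proj j) (LinearMap.proj j)

omit hKn in
theorem iForm_θ (x : G) (v : G ⧸ K → WSpace n) :
    (iForm ρ a l m x).θ v = ∑ j, nwt ρ a l m x j * (v j).1 := by
  simp [iForm, LinearMap.sum_apply]

omit hKn in
theorem iForm_β (x : G) (v w : G ⧸ K → WSpace n) :
    (iForm ρ a l m x).β v w = ∑ j, nwt ρ a l m x j * wβ a l (v j) (w j) := by
  simp [iForm, LinearMap.sum_apply]

variable (hρ : ∀ k, IsUni (ρ k)) (hal : a < l)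
  (hK : ∀ h, h * g ^ m * h⁻¹ ∈ K)
  (hlow : ∀ h (k : K), (k : G) = h * g ^ m * h⁻¹ → Low ((l : ℕ) - a) (ρ k))

omit hKn [K.FiniteIndex] in
include hK in
theorem pow_mem_of_class {x : G} (hx : x ∈ (ConjClasses.mk g).carrier) : x ^ m ∈ K := by
  rw [ConjClasses.mem_carrier_iff_mk_eq, ConjClasses.mk_eq_mk_iff_isConj] at hx
  obtain ⟨t, ht⟩ := isConj_iff.1 hx.symm
  rw [← ht, conj_pow]
  exact hK t

omit [K.FiniteIndex] in
include hK hlow in
theorem low_cc {x : G} (hx : x ∈ (ConjClasses.mk g).carrier) (j : G ⧸ K) :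
    Low ((l : ℕ) - a) (ρ (cc (x ^ m) j)) := by
  have hm := pow_mem_of_class hK hx
  rw [ConjClasses.mem_carrier_iff_mk_eq, ConjClasses.mk_eq_mk_iff_isConj] at hx
  obtain ⟨t, ht⟩ := isConj_iff.1 hx.symm
  refine hlow (j.out⁻¹ * t) _ ?_
  rw [cc_of_mem hm, ← ht, conj_pow]
  simp [mul_assoc]

include hρ hal hK hlow in
theorem wgt_conj {x : G} (hx : x ∈ (ConjClasses.mk g).carrier) (h : G) (i : G ⧸ K) :
    wgt ρ a l m (h * x * h⁻¹) (h • i) = wgt ρ a l m x i := by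
  have hm := pow_mem_of_class hK hx
  have hm' := pow_mem_of_class hK (class_conj hx h)
  have e : cc ((h * x * h⁻¹) ^ m) (h • i) = cc h i * cc (x ^ m) i * (cc h i)⁻¹ := by
    apply Subtype.ext
    rw [cc_of_mem hm']
    simp only [Subgroup.coe_mul, Subgroup.coe_inv, cc_of_mem hm]
    simp only [cc, conj_pow]
    group
  rw [wgt, e, wgt]
  refine conj_entry hρ _ (low_cc hK hlow hx i) ?_ hal le_rfl
  rw [← e]
  exact low_cc hK hlow (class_conj hx h) _

include hρ hal hK hlow in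
theorem nwt_conj {x : G} (hx : x ∈ (ConjClasses.mk g).carrier) (h : G) (i : G ⧸ K) :
    nwt ρ a l m (h * x * h⁻¹) (h • i) = nwt ρ a l m x i := by
  rw [nwt, nwt, wgt_conj hρ hal hK hlow hx]
  congr 1
  rw [← Equiv.sum_comp (MulAction.toPerm h) fun j => wgt ρ a l m (h * x * h⁻¹) j ^ 2]
  exact sum_congr rfl fun j _ => by simp [wgt_conj hρ hal hK hlow hx]

include hρ hal hK hlow in
theorem sum_sq_conj {x : G} (hx : x ∈ (ConjClasses.mk g).carrier) (h : G) :
    ∑ j : G ⧸ K, wgt ρ a l m (h * x * h⁻¹) j ^ 2 = ∑ j : G ⧸ K, wgt ρ a l m x j ^ 2 := by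
  rw [← Equiv.sum_comp (MulAction.toPerm h) fun j => wgt ρ a l m (h * x * h⁻¹) j ^ 2]
  exact sum_congr rfl fun j _ => by simp [wgt_conj hρ hal hK hlow hx]

theorem wβ_le (v w : WSpace n) : |wβ a l v w| ≤ n * (‖v‖ * ‖w‖) := by
  show |∑ c ∈ Ioo a l, v.2.1 c * w.2.2 c| ≤ _
  refine (Finset.abs_sum_le_sum_abs _ _).trans ((Finset.sum_le_card_nsmul _ _ (‖v‖ * ‖w‖)
    fun c _ => ?_).trans ?_)
  · rw [abs_mul]
    refine mul_le_mul ?_ ?_ (abs_nonneg _) (norm_nonneg _)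
    · exact (norm_le_pi_norm v.2.1 c).trans ((norm_fst_le v.2).trans (norm_snd_le v))
    · exact (norm_le_pi_norm w.2.2 c).trans ((norm_snd_le w.2).trans (norm_snd_le w))
  · rw [nsmul_eq_mul]
    refine mul_le_mul_of_nonneg_right ?_ (by positivity)
    have := Finset.card_le_univ (Ioo a l)
    rw [Fintype.card_fin] at this
    exact_mod_cast this

omit hKn in
include hρ in
theorem exists_cc_bound (A : Finset G) : ∃ C : ℝ, 0 ≤ C ∧ ∀ (N : ℕ) (x : G), Word A N x →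
    ∀ (j : G ⧸ K) (i c : Fin n), |ρ (cc x j) i c| ≤ (1 + C * (N : ℝ)) ^ n := by
  classical
  let L : Finset G := A ∪ A.image fun u => u⁻¹
  obtain ⟨C0, hC0⟩ : ∃ C0 : ℝ, ∀ u ∈ L, ∀ (j : G ⧸ K) (i c : Fin n), |ρ (cc u j) i c| ≤ C0 :=
    ⟨∑ u ∈ L, ∑ j : G ⧸ K, ∑ i : Fin n, ∑ c : Fin n, |ρ (cc u j) i c|, fun u hu j i c =>
      le_trans (single_le_sum (f := fun c : Fin n => |ρ (cc u j) i c|) (fun _ _ => abs_nonneg _)
        (mem_univ c)) <|
      le_trans (single_le_sum (f := fun i : Fin n => ∑ c : Fin n, |ρ (cc u j) i c|)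
        (fun _ _ => sum_nonneg fun _ _ => abs_nonneg _) (mem_univ i)) <|
      le_trans (single_le_sum (f := fun j : G ⧸ K => ∑ i : Fin n, ∑ c : Fin n, |ρ (cc u j) i c|)
        (fun _ _ => sum_nonneg fun _ _ => sum_nonneg fun _ _ => abs_nonneg _) (mem_univ j)) <|
      single_le_sum (f := fun u => ∑ j : G ⧸ K, ∑ i : Fin n, ∑ c : Fin n, |ρ (cc u j) i c|)
        (fun _ _ => sum_nonneg fun _ _ => sum_nonneg fun _ _ => sum_nonneg fun _ _ => abs_nonneg _)
        hu⟩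
  set C := max C0 0 with hC
  have hC' : 0 ≤ C := le_max_right _ _
  have hl : ∀ (l' : List G), (∀ u ∈ l', u ∈ L) → ∀ (j : G ⧸ K) (i c : Fin n), i ≤ c →
      |ρ (cc l'.prod j) i c| ≤ (1 + (n + 1) * C * (l'.length : ℝ)) ^ ((c : ℕ) - i) := by
    intro l'
    induction l' with
    | nil =>
      intro _ j i c _
      rw [List.prod_nil, cc_one, map_one, Matrix.one_apply]
      refine le_trans ?_ (one_le_pow₀ (by simp))
      split_ifs <;> simp
    | cons u l'' ih =>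
      intro hu j i c hic
      rw [List.prod_cons, cc_mul, map_mul, List.length_cons]
      push_cast
      refine mul_bound (hρ _) (hρ _) hC' (Nat.cast_nonneg _) (fun i' c' => ?_)
        (fun i' c' h => ih (fun w hw => hu w (List.mem_cons_of_mem _ hw)) j i' c' h) i c hic
      exact (hC0 u (hu u List.mem_cons_self) _ i' c').trans (le_max_left _ _)
  refine ⟨((n : ℝ) + 1) * C, by positivity, fun N x hx j i c => ?_⟩
  obtain ⟨l', hl', hlen, rfl⟩ := hx
  have h1 : (1 : ℝ) ≤ 1 + ((n : ℝ) + 1) * C * N := by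
    have : (0 : ℝ) ≤ ((n : ℝ) + 1) * C * N := by positivity
    linarith
  rcases le_or_gt i c with hic | hic
  · refine (hl l' (fun u hu => ?_) j i c hic).trans ((pow_le_pow_left₀ (by positivity) ?_ _).trans
      (pow_le_pow_right₀ h1 (by omega)))
    · simp only [L, mem_union, mem_image]
      rcases hl' u hu with h | h
      · exact Or.inl h
      · exact Or.inr ⟨u⁻¹, h, inv_inv u⟩
    · exact add_le_add le_rfl (mul_le_mul_of_nonneg_left (Nat.cast_le.2 hlen) (by positivity))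
  · rw [(hρ _).below hic, abs_zero]
    positivity

include hρ hal hK hlow in
theorem hsCoeff_eq_zero_of_window (hm : 0 < m) {x₀ : G} (hx₀ : x₀ ∈ (ConjClasses.mk g).carrier)
    {j₀ : G ⧸ K} (hne : wgt ρ a l m x₀ j₀ ≠ 0) {q : ℕ} {e : Fin q → Fin q → G → ℂ}
    (he : IsL1Idempotent e) : hsCoeff e (ConjClasses.mk g).carrier = 0 := by
  classical
  have hsq : ∀ x ∈ (ConjClasses.mk g).carrier,
      ∑ j : G ⧸ K, wgt ρ a l m x j ^ 2 = ∑ j : G ⧸ K, wgt ρ a l m x₀ j ^ 2 := by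
    intro x hx
    rw [ConjClasses.mem_carrier_iff_mk_eq] at hx
    have hx0 := hx₀
    rw [ConjClasses.mem_carrier_iff_mk_eq, ← hx] at hx0
    obtain ⟨t, rfl⟩ := isConj_iff.1 (ConjClasses.mk_eq_mk_iff_isConj.1 hx0)
    exact sum_sq_conj hρ hal hK hlow hx₀ t
  have hW : 0 < ∑ j : G ⧸ K, wgt ρ a l m x₀ j ^ 2 :=
    lt_of_lt_of_le (by positivity) (single_le_sum (f := fun j => wgt ρ a l m x₀ j ^ 2)
      (fun _ _ => sq_nonneg _) (mem_univ j₀))
  have hm' : (m : ℝ) ≠ 0 := Nat.cast_ne_zero.2 hm.ne'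
  refine hsCoeff_eq_zero_of_affine (E := G ⧸ K → WSpace n) (m := m)
    { p := ip ρ a l
      T := iT ρ a l
      form := iForm ρ a l m
      U := fun x j => ((m : ℝ)⁻¹ * wgt ρ a l m x j, 0, 0)
      cocycle := fun h y => ?_
      vert := fun x _ v => ?_
      norm_U := fun x hx => ?_
      period := fun x hx y => ?_
      maps := fun x hx h => ⟨fun v w => ?_, fun v => ?_⟩
      bound := ?_
      growth := fun A => ?_ } hm he
  · funext j
    have e : y • ((h * y)⁻¹ • j) = h⁻¹ • j := by rw [← mul_smul]; simp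
    show wp ρ a l (cc (h * y) ((h * y)⁻¹ • j)) = _
    rw [cc_mul, wp_mul hρ hal, e]
    show wp ρ a l (cc h (h⁻¹ • j)) + _ = wp ρ a l (cc h (h⁻¹ • j)) +
      wT ρ a l (cc h (h⁻¹ • j)) (wp ρ a l (cc y (y⁻¹ • (h⁻¹ • j))))
    rw [mul_inv_rev, mul_smul]
  · rw [iForm_β, iForm_β]
    constructor <;> refine sum_eq_zero fun j _ => ?_ <;> simp [wβ]
  · rw [iForm_θ]
    simp only [nwt]
    rw [hsq x hx]
    have e : ∀ j : G ⧸ K, (m : ℝ) * wgt ρ a l m x j / (∑ i : G ⧸ K, wgt ρ a l m x₀ i ^ 2) *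
        ((m : ℝ)⁻¹ * wgt ρ a l m x j) =
        wgt ρ a l m x j ^ 2 / ∑ i : G ⧸ K, wgt ρ a l m x₀ i ^ 2 := fun j => by field_simp
    simp only [e, ← sum_div]
    rw [hsq x hx, div_self hW.ne']
  · funext j
    have hxm := pow_mem_of_class hK hx
    have e : (x ^ m * y)⁻¹ • j = y⁻¹ • j := by
      rw [mul_inv_rev, mul_smul, smul_of_mem (inv_mem hxm)]
    show wp ρ a l (cc (x ^ m * y) ((x ^ m * y)⁻¹ • j)) = _
    rw [e, cc_mul, smul_inv_smul, wp_corner_mul hρ hal (low_cc hK hlow hx j)]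
    refine congrArg (wp ρ a l (cc y (y⁻¹ • j)) + ·) (Prod.ext ?_ (Prod.ext ?_ ?_))
    · show wgt ρ a l m x j = (m : ℝ) * ((m : ℝ)⁻¹ * wgt ρ a l m x j)
      field_simp
    · simp
    · simp
  · rw [iForm_β, iForm_β, ← Equiv.sum_comp (MulAction.toPerm h)
      (fun j => nwt ρ a l m (h * x * h⁻¹) j * wβ a l (iT ρ a l h v j) (iT ρ a l h w j))]
    refine sum_congr rfl fun i _ => ?_
    show nwt ρ a l m (h * x * h⁻¹) (h • i) *
      wβ a l (wT ρ a l (cc h (h⁻¹ • h • i)) (v (h⁻¹ • h • i)))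
        (wT ρ a l (cc h (h⁻¹ • h • i)) (w (h⁻¹ • h • i))) = _
    rw [nwt_conj hρ hal hK hlow hx, inv_smul_smul, wβ_wT hρ]
  · rw [iForm_θ, iForm_β, iForm_θ, ← sum_add_distrib, ← Equiv.sum_comp (MulAction.toPerm h)]
    refine sum_congr rfl fun i _ => ?_
    show nwt ρ a l m (h * x * h⁻¹) (h • i) * (wT ρ a l (cc h (h⁻¹ • h • i)) (v (h⁻¹ • h • i))).1 +
      nwt ρ a l m (h * x * h⁻¹) (h • i) * wβ a l (wp ρ a l (cc h (h⁻¹ • h • i)))
        (wT ρ a l (cc h (h⁻¹ • h • i)) (v (h⁻¹ • h • i))) = _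
    rw [nwt_conj hρ hal hK hlow hx, inv_smul_smul, ← mul_add, wθ_wT hρ]
  · set W := ∑ j : G ⧸ K, wgt ρ a l m x₀ j ^ 2
    let c : ℝ := 1 + (Fintype.card (G ⧸ K) : ℝ) * ((m : ℝ) * (W + 1) / W) * ((n : ℝ) + 1)
    refine ⟨c, fun x hx => ?_⟩
    have hb : ∀ j, |nwt ρ a l m x j| ≤ (m : ℝ) * (W + 1) / W := fun j => by
      rw [nwt, hsq x hx, abs_div, abs_of_pos hW, abs_mul, abs_of_nonneg (Nat.cast_nonneg m)]
      refine div_le_div_of_nonneg_right (mul_le_mul_of_nonneg_left ?_ (Nat.cast_nonneg m)) hW.le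
      have h1 : wgt ρ a l m x j ^ 2 ≤ W :=
        (single_le_sum (f := fun j => wgt ρ a l m x j ^ 2) (fun _ _ => sq_nonneg _) (mem_univ j)).trans
          (le_of_eq (hsq x hx))
      rw [abs_le]
      constructor <;> nlinarith
    set b := (m : ℝ) * (W + 1) / W with hbdef
    have hb0 : 0 ≤ b := by positivity
    have hcard : (0 : ℝ) ≤ (Fintype.card (G ⧸ K) : ℝ) * b := by positivity
    refine ⟨by nlinarith [mul_nonneg hcard (show (0 : ℝ) ≤ (n : ℝ) + 1 by positivity)], fun v => ?_,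
      fun v w => ?_⟩
    · rw [iForm_θ]
      refine (abs_sum_le_sum_abs _ _).trans ((sum_le_card_nsmul _ _ (b * ‖v‖) fun j _ => ?_).trans ?_)
      · rw [abs_mul]
        exact mul_le_mul (hb j) ((norm_fst_le (v j)).trans (norm_le_pi_norm v j)) (abs_nonneg _) hb0
      · rw [card_univ, nsmul_eq_mul, ← mul_assoc]
        refine mul_le_mul_of_nonneg_right ?_ (norm_nonneg _)
        simp only [c, ← hbdef]
        nlinarith [mul_nonneg hcard (Nat.cast_nonneg (α := ℝ) n)]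
    · rw [iForm_β]
      refine (abs_sum_le_sum_abs _ _).trans
        ((sum_le_card_nsmul _ _ (b * ((n : ℝ) * (‖v‖ * ‖w‖))) fun j _ => ?_).trans ?_)
      · rw [abs_mul]
        refine mul_le_mul (hb j) ((wβ_le _ _).trans ?_) (abs_nonneg _) hb0
        exact mul_le_mul_of_nonneg_left (mul_le_mul (norm_le_pi_norm v j) (norm_le_pi_norm w j)
          (norm_nonneg _) (norm_nonneg _)) (Nat.cast_nonneg n)
      · rw [card_univ, nsmul_eq_mul, mul_assoc c, ← mul_assoc, ← mul_assoc]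
        refine mul_le_mul_of_nonneg_right ?_ (by positivity)
        simp only [c, ← hbdef]
        nlinarith [mul_nonneg hcard (Nat.cast_nonneg (α := ℝ) n)]
  · obtain ⟨C, hC, hb⟩ := exists_cc_bound (K := K) hρ A
    refine ⟨(1 + C) ^ n, n, by positivity, fun N x hx => ?_⟩
    set R := (1 + C) ^ n * (1 + (N : ℝ)) ^ n
    have hR : 0 ≤ R := by positivity
    have hent : ∀ (y : G), Word A N y → ∀ (j : G ⧸ K) (i c : Fin n), |ρ (cc y j) i c| ≤ R := by
      intro y hy j i c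
      refine (hb N y hy j i c).trans ?_
      simp only [R]
      rw [← mul_pow]
      refine pow_le_pow_left₀ (by positivity) ?_ n
      nlinarith [Nat.cast_nonneg (α := ℝ) N]
    refine (pi_norm_le_iff_of_nonneg hR).2 fun j => ?_
    show ‖wp ρ a l (cc x (x⁻¹ • j))‖ ≤ R
    have hinv : (cc x (x⁻¹ • j))⁻¹ = cc x⁻¹ j := by
      refine inv_eq_of_mul_eq_one_left ?_
      have h := cc_mul x⁻¹ x (x⁻¹ • j)
      rw [inv_mul_cancel, cc_one, smul_inv_smul] at h
      exact h.symm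
    have hxi : Word A N x⁻¹ := by
      obtain ⟨l', hl', hlen, rfl⟩ := hx
      refine ⟨(l'.map fun a => a⁻¹).reverse, fun u hu => ?_, by simpa using hlen,
        (List.prod_inv_reverse l').symm⟩
      simp only [List.mem_reverse, List.mem_map] at hu
      obtain ⟨u', hu', rfl⟩ := hu
      simpa [or_comm] using hl' u' hu'
    refine norm_prod_le_iff.2 ⟨hent x hx _ a l, norm_prod_le_iff.2
      ⟨(pi_norm_le_iff_of_nonneg hR).2 fun c => ?_, (pi_norm_le_iff_of_nonneg hR).2 fun c => ?_⟩⟩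
    · show |if c ∈ Ioo a l then ρ (cc x (x⁻¹ • j))⁻¹ a c else 0| ≤ R
      split_ifs
      · rw [hinv]; exact hent x⁻¹ hxi _ _ _
      · simpa using hR
    · show |if c ∈ Ioo a l then ρ (cc x (x⁻¹ • j)) c l else 0| ≤ R
      split_ifs
      · exact hent x hx _ _ _
      · simpa using hR

/-- A power of `g` lies in a subgroup of finite index and is mapped nontrivially by a real upper
unitriangular representation of it. -/
def UnipotentlyDetected {G : Type*} [Group G] (g : G) : Prop :=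
  ∃ (K : Subgroup G) (m n : ℕ) (ρ : K →* Matrix (Fin n) (Fin n) ℝ) (k : K),
    K.index ≠ 0 ∧ 0 < m ∧ (k : G) = g ^ m ∧
      (∀ (x : K) (i j : Fin n), j ≤ i → ρ x i j = if i = j then 1 else 0) ∧ ρ k ≠ 1

omit hKn [K.FiniteIndex] in
/-- **Vanishing at unipotently detected elements.** -/
theorem hsCoeff_eq_zero_of_detected (hg : UnipotentlyDetected g) {q : ℕ}
    {e : Fin q → Fin q → G → ℂ} (he : IsL1Idempotent e) :
    hsCoeff e (ConjClasses.mk g).carrier = 0 := by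
  classical
  obtain ⟨H, m, n, ρ, k, hH, hm, hk, hρ, hne⟩ := hg
  have : H.FiniteIndex := ⟨hH⟩
  set N := H.normalCore
  set t := N.index
  have ht : 0 < t := Nat.pos_of_ne_zero Subgroup.FiniteIndex.index_ne_zero
  let ρN : N →* Matrix (Fin n) (Fin n) ℝ := ρ.comp (Subgroup.inclusion H.normalCore_le)
  have hρN : ∀ x, IsUni (ρN x) := fun x i j h => hρ _ i j h
  have hmem : g ^ (m * t) ∈ N := by
    rw [pow_mul]; exact Subgroup.pow_index_mem N (g ^ m)
  have hkt : ρN ⟨g ^ (m * t), hmem⟩ ≠ 1 := by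
    have e : Subgroup.inclusion H.normalCore_le ⟨g ^ (m * t), hmem⟩ = k ^ t := by
      apply Subtype.ext; simp [hk, pow_mul]
    show ρ _ ≠ 1
    rw [e]
    exact map_pow_ne_one hρ hne ht
  have hK : ∀ h, h * g ^ (m * t) * h⁻¹ ∈ N := fun h =>
    (inferInstance : N.Normal).conj_mem _ hmem h
  have hex : ∃ d, ∃ (h : G) (i j : Fin n), i < j ∧ (j : ℕ) - i = d ∧ ρN ⟨_, hK h⟩ i j ≠ 0 := by
    obtain ⟨d, -, i, j, hij, hd, hne'⟩ := exists_first (hρN _) hkt
    refine ⟨d, 1, i, j, hij, hd, ?_⟩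
    simpa using hne'
  obtain ⟨h, i, j, hij, hd, hne'⟩ := Nat.find_spec hex
  have hlow : ∀ h' (x : N), (x : G) = h' * g ^ (m * t) * h'⁻¹ →
      Low ((j : ℕ) - i) (ρN x) := by
    intro h' x hx i' j' hij' hd'
    by_contra hne''
    obtain rfl : x = ⟨_, hK h'⟩ := Subtype.ext hx
    exact Nat.find_min hex (hd ▸ hd') ⟨h', i', j', hij', rfl, hne''⟩
  refine hsCoeff_eq_zero_of_window hρN hij hK hlow (Nat.mul_pos hm ht)
    (x₀ := h * g * h⁻¹) (j₀ := ((1 : G) : G ⧸ N)) ?_ ?_ he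
  · exact class_conj (ConjClasses.mem_carrier_iff_mk_eq.2 rfl) h
  · have hmem' : (h * g * h⁻¹) ^ (m * t) ∈ N := by rw [conj_pow]; exact hK h
    have hs : ((1 : G) : G ⧸ N).out ∈ N :=
      (QuotientGroup.eq_one_iff _).1 (QuotientGroup.out_eq' _)
    have e : cc ((h * g * h⁻¹) ^ (m * t)) ((1 : G) : G ⧸ N) =
        (⟨_, hs⟩ : N)⁻¹ * ⟨_, hK h⟩ * (⟨_, hs⟩ : N)⁻¹⁻¹ := by
      apply Subtype.ext
      rw [cc_of_mem hmem', conj_pow]
      simp [mul_assoc]
    have hl := hlow (((1 : G) : G ⧸ N).out⁻¹ * h) (cc ((h * g * h⁻¹) ^ (m * t)) ((1 : G) : G ⧸ N)) (by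
      rw [cc_of_mem hmem', conj_pow]
      simp [mul_assoc])
    rw [wgt, e, conj_entry hρN _ (hlow h _ rfl) (by rwa [← e]) hij le_rfl]
    exact hne'

end Vale.P184.Winding
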