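import Vale.Agent.P184.Winding.Vanish

/-!
P184: pairing an idempotent with the class-localised form sums; the coefficient vanishes.
-/

namespace Vale.P184.Winding

open scoped Matrix.Norms.Operator

open Fin.NatCast Form

variable {G : Type*} [Group G] {E : Type*} [NormedAddCommGroup E] [NormedSpace ℝ E] {q m : ℕ}
  {S : Set G} {ℓ : G → ℝ}

theorem one_add_sum_le_prod {n : ℕ} (a : Fin n → ℝ) (ha : ∀ i, 0 ≤ a i) :
    1 + ∑ i, a i ≤ ∏ i, (1 + a i) := by
  induction n with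
  | zero => simp
  | succ n ih =>
    rw [Fin.sum_univ_succ, Fin.prod_univ_succ]
    have h1 := ih (fun i => a i.succ) fun i => ha _
    have h2 : (0 : ℝ) ≤ ∑ i : Fin n, a i.succ := Finset.sum_nonneg fun i _ => ha _
    have h3 := mul_le_mul_of_nonneg_left h1 (by linarith [ha 0] : (0 : ℝ) ≤ 1 + a 0)
    nlinarith [mul_nonneg (ha 0) h2]

theorem gauge_z_le (P : Datum S ℓ E) (h : Fin (m + 1) → G) (j : ℕ) :
    ℓ (z h j) ≤ j * ∑ i, ℓ (h i) := by
  induction j with
  | zero => simp [z, P.ℓ_one]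
  | succ j ih =>
    refine (P.ℓ_mul _ _).trans ?_
    have := Finset.single_le_sum (f := fun i => ℓ (h i)) (fun i _ => P.ℓ_nonneg _)
      (Finset.mem_univ ((j : ℕ) : Fin (m + 1)))
    push_cast
    linarith

/-- A function on tuples of polynomial growth. -/
def PolyBd (ℓ : G → ℝ) (f : (Fin (m + 1) → G) → ℝ) : Prop :=
  ∃ (C : ℝ) (N : ℕ), ∀ h, |f h| ≤ C * ∏ i, (1 + ℓ (h i)) ^ N

open Classical in
theorem polyBd_eval (P : Datum S ℓ E) {n : ℕ} {φ : Form E → (Fin n → E) → ℝ} {e : ℕ}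
    (hφ : ∀ c, 1 ≤ c → ∃ A, 0 ≤ A ∧ ∀ D : Form E, D.BoundedBy c → ∀ R : ℝ, 0 ≤ R →
      ∀ p : Fin n → E, (∀ i, ‖p i‖ ≤ R) → |φ D p| ≤ A * (1 + R) ^ e)
    (σ : Fin n → Fin (m + 1)) :
    PolyBd ℓ fun h : Fin (m + 1) → G => if z h (m + 1) ∈ S then
      φ (P.form (z h (m + 1))) (fun j => P.pos (z h (m + 1)) (z h (σ j))) else 0 := by
  obtain ⟨c, hc⟩ := P.bound
  obtain ⟨C, N, hC, hg⟩ := P.growth
  by_cases hne : ∃ x, x ∈ S
  swap
  · refine ⟨0, 0, fun h => ?_⟩
    have hx : z h (m + 1) ∉ S := fun hx => hne ⟨_, hx⟩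
    simp [hx]
  obtain ⟨x₀, hx₀⟩ := hne
  obtain ⟨A, hA, hb⟩ := hφ c (hc x₀ hx₀).one_le
  set B := C * (2 * ((m : ℝ) + 1) + 1) ^ N with hB
  refine ⟨A * (1 + B) ^ e, N * e, fun h => ?_⟩
  have hprod : 0 ≤ ∏ i, (1 + ℓ (h i)) ^ (N * e) :=
    Finset.prod_nonneg fun i _ => pow_nonneg (by linarith [P.ℓ_nonneg (h i)]) _
  simp only
  by_cases hS : z h (m + 1) ∈ S
  swap
  · rw [if_neg hS, abs_zero]; positivity
  rw [if_pos hS]
  set s := ∑ i, ℓ (h i) with hs
  have hs0 : 0 ≤ s := Finset.sum_nonneg fun i _ => P.ℓ_nonneg _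
  set Q := ∏ i, (1 + ℓ (h i)) with hQ
  have hsQ : 1 + s ≤ Q := one_add_sum_le_prod (fun i => ℓ (h i)) fun i => P.ℓ_nonneg _
  have hp : ∀ j, ‖P.pos (z h (m + 1)) (z h (σ j))‖ ≤ B * Q ^ N := by
    intro j
    refine (hg _ hS _).trans ?_
    rw [hB, mul_assoc, ← mul_pow]
    refine mul_le_mul_of_nonneg_left (pow_le_pow_left₀ ?_ ?_ N) hC
    · linarith [P.ℓ_nonneg (z h (m + 1)), P.ℓ_nonneg (z h (σ j))]
    · have h1 := gauge_z_le P h (m + 1)
      have h2 := gauge_z_le P h (σ j)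
      have h3 : ((σ j : ℕ) : ℝ) ≤ (m : ℝ) + 1 := by exact_mod_cast (σ j).2.le
      have h4 := mul_le_mul_of_nonneg_right h3 hs0
      have h5 := mul_le_mul_of_nonneg_left hsQ (by positivity : (0 : ℝ) ≤ 2 * ((m : ℝ) + 1) + 1)
      push_cast at h1
      rw [← hs] at h1 h2
      nlinarith
  have hQ1 : 1 ≤ Q := le_trans (by linarith) hsQ
  have hB0 : 0 ≤ B := by positivity
  refine (hb _ (hc _ hS) (B * Q ^ N) (by positivity) _ hp).trans ?_
  rw [mul_assoc A, show ∏ i, (1 + ℓ (h i)) ^ (N * e) = (Q ^ N) ^ e by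
    rw [← pow_mul, hQ, ← Finset.prod_pow], ← mul_pow]
  refine mul_le_mul_of_nonneg_left (pow_le_pow_left₀ (by positivity) ?_ e) hA
  have : (1 : ℝ) ≤ Q ^ N := one_le_pow₀ hQ1
  nlinarith

theorem polyBd_F (P : Datum S ℓ E) (k : ℕ) :
    PolyBd ℓ (ev P (fun D => D.F k) : (Fin (2 * k + 1) → G) → ℝ) :=
  polyBd_eval P (φ := fun D => D.F k) (e := 2 * k) (fun c hc => by
    obtain ⟨A, hA, h⟩ := exists_F_le (E := E) hc k
    exact ⟨A, hA, fun D hD R hR p hp => (h D hD R hR p hp).trans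
      (mul_le_mul_of_nonneg_left (pow_le_pow_left₀ hR (by linarith) _) hA)⟩) id

theorem polyBd_L (P : Datum S ℓ E) (k : ℕ) :
    PolyBd ℓ (ev P (fun D => D.L k) : (Fin (2 * k + 1 + 1) → G) → ℝ) :=
  polyBd_eval P (φ := fun D => D.L k) (e := 2 * k + 2) (fun _c hc => exists_L_le hc k) id

theorem polyBd_F_mrg (P : Datum S ℓ E) (k : ℕ) (i : Fin (2 * k + 1 + 1)) :
    PolyBd ℓ fun h : Fin (2 * k + 1 + 1) → G => ev P (fun D => D.F k) (mrg i h) := by
  simp only [ev_mrg P (natF k)]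
  exact polyBd_eval P (φ := fun D => D.F k) (e := 2 * k) (fun c hc => by
    obtain ⟨A, hA, h⟩ := exists_F_le (E := E) hc k
    exact ⟨A, hA, fun D hD R hR p hp => (h D hD R hR p hp).trans
      (mul_le_mul_of_nonneg_left (pow_le_pow_left₀ hR (by linarith) _) hA)⟩) i.succAbove

theorem polyBd_L_mrg (P : Datum S ℓ E) (k : ℕ) (i : Fin (2 * k + 1 + 1 + 1)) :
    PolyBd ℓ fun h : Fin (2 * k + 1 + 1 + 1) → G => ev P (fun D => D.L k) (mrg i h) := by
  simp only [ev_mrg P (natL k)]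
  exact polyBd_eval P (φ := fun D => D.L k) (e := 2 * k + 2) (fun _c hc => exists_L_le hc k)
    i.succAbove

omit [Group G] in
theorem polyBd_rot {f : (Fin (m + 1) → G) → ℝ} (hf : PolyBd ℓ f) (r : Fin (m + 1)) :
    PolyBd ℓ fun h => f (rot r h) := by
  obtain ⟨C, N, h⟩ := hf
  refine ⟨C, N, fun x => (h _).trans (le_of_eq ?_)⟩
  congr 1
  exact Equiv.prod_comp (Equiv.addRight r) fun i => (1 + ℓ (x i)) ^ N

variable (M : G → Matrix (Fin q) (Fin q) ℂ)

/-- The pairing with the weights. -/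
noncomputable def pair (f : (Fin (m + 1) → G) → ℝ) : ℂ := ∑' h, wt M h * (f h : ℂ)

/-- Weighted summability and idempotency. -/
structure Nice (ℓ : G → ℝ) : Prop where
  summable : ∀ N : ℕ, Summable fun x => ‖M x‖ * (1 + ℓ x) ^ N
  idem : ∀ c, ∑' a, M a * M (a⁻¹ * c) = M c

variable {M}

theorem summable_pair (hM : Nice M ℓ) (hℓ : ∀ x, 0 ≤ ℓ x) {f : (Fin (m + 1) → G) → ℝ}
    (hf : PolyBd ℓ f) : Summable fun h => wt M h * (f h : ℂ) := by
  obtain ⟨C, N, hC⟩ := hf
  refine Summable.of_norm_bounded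
    ((summable_massW M ℓ hℓ N (hM.summable N) (m + 1)).mul_left ((q : ℝ) * C)) fun h => ?_
  have hC0 : 0 ≤ C * ∏ i, (1 + ℓ (h i)) ^ N := (abs_nonneg _).trans (hC h)
  rw [norm_mul, Complex.norm_real, Real.norm_eq_abs]
  refine (mul_le_mul (norm_wt_le M h) (hC h) (abs_nonneg _)
    (mul_nonneg (Nat.cast_nonneg q) (Finset.prod_nonneg fun i _ => norm_nonneg _))).trans
      (le_of_eq ?_)
  simp only [massW, Finset.prod_mul_distrib]
  ring

omit [Group G] in
theorem pair_rot (f : (Fin (m + 1) → G) → ℝ) (r : Fin (m + 1)) :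
    pair M (fun h => f (rot r h)) = pair M f := by
  rw [pair, pair, ← (rot r).tsum_eq fun h => wt M h * (f h : ℂ)]
  simp only [wt_rot]

/-- Splitting the last letter. -/
def splitLast : (Fin (m + 1) → G) × G ≃ (Fin (m + 1 + 1) → G) where
  toFun p := Fin.snoc (Fin.snoc (Fin.init p.1) p.2) (p.2⁻¹ * p.1 (Fin.last m))
  invFun h := (Fin.snoc (Fin.init (Fin.init h)) (Fin.init h (Fin.last m) * h (Fin.last (m + 1))),
    Fin.init h (Fin.last m))
  left_inv p := by simp [Fin.init_snoc, Fin.snoc_init_self]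
  right_inv h := by simp [Fin.init_snoc, Fin.snoc_init_self]

theorem mrg_zero (h : Fin (m + 1 + 1) → G) :
    mrg 0 h = (splitLast.symm (rot 1 h)).1 := by
  funext j
  show (pt 0 h j)⁻¹ * pt 0 h (j + 1) = _
  refine Fin.lastCases ?_ (fun i => ?_) j
  · show _ = Fin.snoc (α := fun _ => G) _ _ (Fin.last m)
    rw [Fin.snoc_last]
    simp [pt, z, Fin.init, rot_apply, mul_assoc]
    congr 1
    apply Fin.ext
    simp [Fin.val_add, Nat.mod_eq_of_lt]
  · show _ = Fin.snoc (α := fun _ => G) _ _ i.castSucc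
    rw [Fin.snoc_castSucc]
    simp [pt, z, Fin.init, rot_apply, Fin.coeSucc_eq_succ, mul_assoc]
    congr 1
    apply Fin.ext
    simp [Fin.val_add, Nat.mod_eq_of_lt]

theorem pair_mrg_zero (hM : Nice M ℓ) (hℓ : ∀ x, 0 ≤ ℓ x) {f : (Fin (m + 1) → G) → ℝ}
    (hf : PolyBd ℓ fun h : Fin (m + 1 + 1) → G => f (mrg 0 h)) :
    pair M (fun h : Fin (m + 1 + 1) → G => f (mrg 0 h)) = pair M f := by
  have hs : Summable fun h : Fin (m + 1 + 1) → G => wt M h * (f ((splitLast.symm h).1) : ℂ) := by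
    refine ((rot (1 : Fin (m + 1 + 1))).summable_iff).1 ((summable_pair hM hℓ hf).congr fun h => ?_)
    simp [wt_rot, mrg_zero]
  rw [pair, pair]
  simp only [mrg_zero]
  rw [← (rot (1 : Fin (m + 1 + 1))).symm.tsum_eq]
  simp only [Equiv.apply_symm_apply]
  have hw : ∀ h : Fin (m + 1 + 1) → G, wt M ((rot (1 : Fin (m + 1 + 1))).symm h) = wt M h := fun h => by
    conv_rhs => rw [← (rot (1 : Fin (m + 1 + 1))).apply_symm_apply h, wt_rot]
  simp only [hw]
  have hs' := (splitLast.summable_iff).2 hs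
  simp only [Function.comp_def, Equiv.symm_apply_apply] at hs'
  rw [← splitLast.tsum_eq]
  simp only [Equiv.symm_apply_apply]
  rw [hs'.tsum_prod]
  refine tsum_congr fun u => ?_
  show ∑' a, wt M (splitLast (u, a)) * (f u : ℂ) = _
  rw [tsum_mul_right]
  congr 1
  set Q := (List.ofFn fun i => M (Fin.init u i)).prod
  have hwt : ∀ a, wt M (splitLast (u, a)) = (Q * (M a * M (a⁻¹ * u (Fin.last m)))).trace := by
    intro a
    rw [wt, List.ofFn_succ', List.concat_eq_append, List.prod_append, List.ofFn_succ',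
      List.concat_eq_append, List.prod_append]
    simp [splitLast, Q, mul_assoc, Fin.init]
  have hu : wt M u = (Q * M (u (Fin.last m))).trace := by
    rw [wt, List.ofFn_succ', List.concat_eq_append, List.prod_append]
    simp [Q, Fin.init]
  simp only [hwt]
  rw [hu, ← hM.idem (u (Fin.last m))]
  have h0 := hM.summable 0
  simp only [pow_zero, mul_one] at h0
  have hsum : Summable fun a => M a * M (a⁻¹ * u (Fin.last m)) :=
    Summable.of_norm_bounded (h0.mul_right (∑' x, ‖M x‖)) fun a => (norm_mul_le _ _).trans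
      (mul_le_mul_of_nonneg_left (h0.le_tsum _ fun _ _ => norm_nonneg _) (norm_nonneg _))
  let T : Matrix (Fin q) (Fin q) ℂ →+ ℂ :=
    { toFun := fun A => (Q * A).trace
      map_zero' := by simp
      map_add' := fun A B => by simp [mul_add] }
  exact (hsum.hasSum.map T (by show Continuous fun A => (Q * A).trace; fun_prop)).tsum_eq

/-- Merging two neighbours does not change the pairing. -/
theorem pair_mrg (hM : Nice M ℓ) (hℓ : ∀ x, 0 ≤ ℓ x) (i : Fin (m + 1 + 1)) :
    ∀ f : (Fin (m + 1) → G) → ℝ, PolyBd ℓ (fun h : Fin (m + 1 + 1) → G => f (mrg i h)) →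
      pair M (fun h : Fin (m + 1 + 1) → G => f (mrg i h)) = pair M f := by
  induction i using Fin.induction with
  | zero => exact fun f hf => pair_mrg_zero hM hℓ hf
  | succ i ih =>
    intro f hf
    have e : (fun h : Fin (m + 1 + 1) → G => f (mrg i.succ h)) =
        fun h => f ((rot 1).symm (mrg i.castSucc (rot 1 h))) := by
      funext h; rw [mrg_rot, Equiv.symm_apply_apply]
    rw [e, pair_rot (fun h => f ((rot 1).symm (mrg i.castSucc h))) 1,
      ih (fun h => f ((rot 1).symm h))]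
    · conv_rhs => rw [← pair_rot f (-1)]
      refine congrArg (pair M) (funext fun h => congrArg f (funext fun j => ?_))
      simp [rot, sub_eq_add_neg]
    · have h2 := polyBd_rot hf (-1 : Fin (m + 1 + 1))
      rw [e] at hf
      have e2 : ∀ h : Fin (m + 1 + 1) → G, rot 1 (rot (-1) h) = h := fun h => by
        funext j; simp [rot]
      simpa [mrg_rot, e2] using polyBd_rot hf (-1 : Fin (m + 1 + 1))

theorem pair_sum (hM : Nice M ℓ) (hℓ : ∀ x, 0 ≤ ℓ x) {ι : Type*} [Fintype ι] (a : ι → ℝ)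
    (f : ι → (Fin (m + 1) → G) → ℝ) (hf : ∀ i, PolyBd ℓ (f i)) :
    pair M (fun h => ∑ i, a i * f i h) = ∑ i, (a i : ℂ) * pair M (f i) := by
  simp only [pair]
  rw [show (fun i => (a i : ℂ) * ∑' h, wt M h * (f i h : ℂ)) =
      fun i => ∑' h, (a i : ℂ) * (wt M h * (f i h : ℂ)) from funext fun i => tsum_mul_left.symm,
    ← Summable.tsum_finsetSum fun i _ => (summable_pair hM hℓ (hf i)).mul_left _]
  refine tsum_congr fun h => ?_
  push_cast
  rw [Finset.mul_sum]
  exact Finset.sum_congr rfl fun i _ => by ring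

variable (M) in
/-- The `k`-th class-localised form sum. -/
noncomputable def cls (P : Datum S ℓ E) (k : ℕ) : ℂ :=
  pair M (ev P (fun D => D.F k) : (Fin (2 * k + 1) → G) → ℝ)

theorem pair_L (hM : Nice M ℓ) (P : Datum S ℓ E) (k : ℕ) :
    pair M (ev P (fun D => D.L k) : (Fin (2 * k + 1 + 1) → G) → ℝ) = ((k : ℂ) + 1) * cls M P k := by
  set n : ℝ := 2 * (k : ℝ) + 2
  have h1 : pair M (fun h => ∑ r : Fin (2 * k + 1 + 1), (-1 : ℝ) ^ (r : ℕ) *
      ev P (fun D => D.L k) (rot r h)) = 0 := by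
    rw [pair_sum hM P.ℓ_nonneg (fun r : Fin (2 * k + 1 + 1) => (-1 : ℝ) ^ (r : ℕ))
      (fun r h => ev P (fun D => D.L k) (rot r h)) fun r => polyBd_rot (polyBd_L P k) r]
    simp only [pair_rot, ← Finset.sum_mul]
    rw [← Complex.ofReal_sum, show 2 * k + 1 + 1 = 2 * (k + 1) by ring, alt_ones]
    simp
  simp only [rot_sum] at h1
  have h2 : (fun h : Fin (2 * k + 1 + 1) → G => n * ev P (fun D => D.L k) h - n *
      ∑ i : Fin (2 * k + 1 + 1), (-1 : ℝ) ^ (i : ℕ) * (2 * (k : ℝ) + 1 - (i : ℕ)) *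
        ev P (fun D => D.F k) (mrg i h)) = fun h => ∑ o : Option (Fin (2 * k + 1 + 1)),
      o.elim n (fun i => -(n * ((-1 : ℝ) ^ (i : ℕ) * (2 * (k : ℝ) + 1 - (i : ℕ))))) *
        o.elim (ev P (fun D => D.L k) h) fun i => ev P (fun D => D.F k) (mrg i h) := by
    funext h
    rw [Fintype.sum_option, Finset.mul_sum, sub_eq_add_neg, ← Finset.sum_neg_distrib]
    simp only [Option.elim]
    congr 1
    exact Finset.sum_congr rfl fun i _ => by ring
  rw [h2, pair_sum hM P.ℓ_nonneg _ (fun (o : Option (Fin (2 * k + 1 + 1))) h =>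
      o.elim (ev P (fun D => D.L k) h) fun i => ev P (fun D => D.F k) (mrg i h))
    (fun o => by cases o with
      | none => exact polyBd_L P k
      | some i => exact polyBd_F_mrg P k i),
    Fintype.sum_option] at h1
  simp only [Option.elim] at h1
  simp only [fun i => pair_mrg hM P.ℓ_nonneg i (ev P fun D => D.F k) (polyBd_F_mrg P k i),
    ← Finset.sum_mul, ← Complex.ofReal_sum] at h1
  rw [Finset.sum_neg_distrib, ← Finset.mul_sum, alt_sum] at h1
  have hn : (n : ℂ) ≠ 0 := by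
    rw [Complex.ofReal_ne_zero]; positivity
  push_cast at h1
  refine mul_left_cancel₀ hn ?_
  rw [cls]
  linear_combination h1

theorem cls_succ (hM : Nice M ℓ) (P : Datum S ℓ E) (k : ℕ) :
    cls M P (k + 1) = ((k : ℂ) + 1) * cls M P k := by
  rw [cls, ← pair_L hM P k, show ev P (fun D => D.F (k + 1)) = fun h : Fin (2 * k + 1 + 1 + 1) → G =>
    ∑ i : Fin (2 * k + 1 + 1 + 1), (-1 : ℝ) ^ (i : ℕ) * ev P (fun D => D.L k) (mrg i h) from
      funext fun h => (face_sum P k h).symm,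
    pair_sum hM P.ℓ_nonneg (fun i : Fin (2 * k + 1 + 1 + 1) => (-1 : ℝ) ^ (i : ℕ))
      (fun i h => ev P (fun D => D.L k) (mrg i h)) fun i => polyBd_L_mrg P k i]
  simp only [fun i => pair_mrg hM P.ℓ_nonneg i (ev P fun D => D.L k) (polyBd_L_mrg P k i),
    ← Finset.sum_mul, ← Complex.ofReal_sum]
  rw [Fin.sum_univ_succ]
  simp only [Fin.val_succ, pow_succ, mul_neg_one, Finset.sum_neg_distrib, Fin.val_zero, pow_zero]
  rw [show 2 * k + 1 + 1 = 2 * (k + 1) by ring, alt_ones]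
  simp

open Classical in
/-- **Vanishing.** An idempotent with rapid decay has no trace on `S`. -/
theorem trace_eq_zero [FiniteDimensional ℝ E] (hM : Nice M ℓ) (P : Datum S ℓ E) :
    ∑' x, (if x ∈ S then (M x).trace else 0) = 0 := by
  have hzero : ∀ k, Module.finrank ℝ E < 2 * k → cls M P k = 0 := fun k hk => by
    have : ∀ (D : Form E) p, D.F k p = 0 := fun D p => by simp [Form.F, edge, Form.Om_eq_zero hk]
    simp [cls, pair, ev, this]
  have hdown : ∀ k, cls M P k = 0 → cls M P 0 = 0 := by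
    intro k
    induction k with
    | zero => exact id
    | succ k ih =>
      intro hk
      refine ih ?_
      rw [cls_succ hM P k] at hk
      exact (mul_eq_zero.1 hk).resolve_left (Nat.cast_add_one_ne_zero k)
  have h0 := hdown _ (hzero (Module.finrank ℝ E + 1) (by omega))
  refine Eq.trans ?_ h0
  rw [cls, pair]
  show _ = ∑' h : Fin 1 → G, wt M h * (ev P (fun D => D.F 0) h : ℂ)
  rw [← (Equiv.funUnique (Fin 1) G).tsum_eq fun x => if x ∈ S then (M x).trace else 0]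
  refine tsum_congr fun h => ?_
  have hz : z h (0 + 1) = h 0 := by simp [z]
  have hu : Equiv.funUnique (Fin 1) G h = h 0 := rfl
  rw [ev, hu]
  by_cases hS : h 0 ∈ S
  · rw [if_pos hS, if_pos (by rw [hz]; exact hS), Form.F_zero]
    simp [wt]
  · rw [if_neg hS, if_neg (by rw [hz]; exact hS)]
    simp

end Vale.P184.Winding
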