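import Vale.Agent.P184.Twist.Main
import Vale.Agent.P184.Winding.Pairing

/-!
P184: every idempotent has the trace of an idempotent, supported on a finitely generated subgroup,
all of whose polynomial moments in the word length are finite.
-/

namespace Vale.P184.Winding

open scoped Matrix.Norms.Operator

open Filter Topology Twist

variable {G : Type*} [Group G] (A : Finset G)

/-- `x` is a product of at most `n` letters from `A` and their inverses. -/
def Word (n : ℕ) (x : G) : Prop :=
  ∃ l : List G, (∀ a ∈ l, a ∈ A ∨ a⁻¹ ∈ A) ∧ l.length ≤ n ∧ l.prod = x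

variable {A}

theorem Word.mul {a b : ℕ} {x y : G} (hx : Word A a x) (hy : Word A b y) : Word A (a + b) (x * y) := by
  obtain ⟨l, hl, hla, rfl⟩ := hx
  obtain ⟨l', hl', hlb, rfl⟩ := hy
  refine ⟨l ++ l', fun u hu => (List.mem_append.1 hu).elim (hl u) (hl' u), ?_, List.prod_append⟩
  rw [List.length_append]; omega

theorem Word.mono {a b : ℕ} (h : a ≤ b) {x : G} (hx : Word A a x) : Word A b x := by
  obtain ⟨l, hl, hla, hp⟩ := hx
  exact ⟨l, hl, hla.trans h, hp⟩

theorem exists_word (x : Subgroup.closure (A : Set G)) : ∃ n, Word A n (x : G) := by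
  have h : (x : G) ∈ Subgroup.closure (A : Set G) := x.2
  generalize (x : G) = y at h
  induction h using Subgroup.closure_induction with
  | mem y hy => exact ⟨1, [y], by simp [Finset.mem_coe.1 hy], by simp, by simp⟩
  | one => exact ⟨0, [], by simp, by simp, by simp⟩
  | mul y y' _ _ ihy ihy' => exact ⟨_, ihy.choose_spec.mul ihy'.choose_spec⟩
  | inv y _ ihy =>
    obtain ⟨n, l, hl, hln, rfl⟩ := ihy
    refine ⟨n, (l.map fun a => a⁻¹).reverse, fun u hu => ?_, by simpa using hln, ?_⟩
    · simp only [List.mem_reverse, List.mem_map] at hu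
      obtain ⟨a, ha, rfl⟩ := hu
      simpa [or_comm] using hl a ha
    · exact (List.prod_inv_reverse l).symm

/-- The word length on the subgroup generated by `A`. -/
noncomputable def wlen (x : Subgroup.closure (A : Set G)) : ℕ := sInf {n | Word A n (x : G)}

theorem word_wlen (x : Subgroup.closure (A : Set G)) : Word A (wlen x) (x : G) :=
  Nat.sInf_mem (exists_word x)

theorem wlen_le {x : Subgroup.closure (A : Set G)} {n : ℕ} (h : Word A n (x : G)) : wlen x ≤ n :=
  Nat.sInf_le h

theorem wlen_one : wlen (1 : Subgroup.closure (A : Set G)) = 0 :=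
  Nat.le_zero.1 (wlen_le ⟨[], by simp, by simp, by simp⟩)

theorem wlen_mul (x y : Subgroup.closure (A : Set G)) : wlen (x * y) ≤ wlen x + wlen y :=
  wlen_le ((word_wlen x).mul (word_wlen y))

theorem Word.mem {n : ℕ} {x : G} (h : Word A n x) : x ∈ Subgroup.closure (A : Set G) := by
  obtain ⟨l, hl, -, rfl⟩ := h
  refine Subgroup.list_prod_mem _ fun a ha => ?_
  rcases hl a ha with h | h
  · exact Subgroup.subset_closure h
  · exact inv_mem_iff.1 (Subgroup.subset_closure h)

variable {R : Type*} [NormedRing R] [CompleteSpace R] {g : G}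

/-- A fully invariant kernel of mass at most `s`, supported on words of length at most `r`. -/
def Sml (A : Finset G) (r : ℕ) (s : ℝ) (K : kern R g) : Prop :=
  (∀ a b c, (K : G → G → R) (a * c) (b * c) = (K : G → G → R) a b) ∧
    ∃ N, Bd (K : G → G → R) N ∧ ∑' x, N x ≤ s ∧ ∀ x, N x ≠ 0 → Word A r x

namespace Sml

variable {r r' : ℕ} {s s' : ℝ} {K L : kern R g}

theorem mul (hK : Sml A r s K) (hL : Sml A r' s' L) : Sml A (r + r') (s * s') (K * L) := by
  obtain ⟨hKf, N, hN, hNs, hNr⟩ := hK
  obtain ⟨hLf, M, hM, hMs, hMr⟩ := hL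
  refine ⟨fun a b c => ?_, Bd.conv N M, hN.mul hM, ?_, fun x hx => ?_⟩
  · rw [mul_apply, mul_apply, ← (Equiv.mulRight c).tsum_eq]
    simp only [Equiv.coe_mulRight, hKf, hLf]
  · rw [hN.tsum_conv hM]
    exact mul_le_mul hNs hMs hM.tsum_nonneg ((hN.tsum_nonneg).trans hNs)
  · obtain ⟨u, hu⟩ : ∃ u, N u * M (u⁻¹ * x) ≠ 0 := by
      by_contra h
      push Not at h
      exact hx (by simp [Bd.conv, h])
    simpa using (hNr u (left_ne_zero_of_mul hu)).mul (hMr _ (right_ne_zero_of_mul hu))

omit [CompleteSpace R] in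
theorem add (hK : Sml A r s K) (hL : Sml A r' s' L) : Sml A (max r r') (s + s') (K + L) := by
  obtain ⟨hKf, N, hN, hNs, hNr⟩ := hK
  obtain ⟨hLf, M, hM, hMs, hMr⟩ := hL
  refine ⟨fun a b c => ?_, N + M, ⟨hN.summable.add hM.summable, fun a b => ?_⟩, ?_, fun x hx => ?_⟩
  · simp [hKf, hLf]
  · exact (norm_add_le _ _).trans (add_le_add (hN.bound a b) (hM.bound a b))
  · simp only [Pi.add_apply]
    rw [hN.summable.tsum_add hM.summable]
    exact add_le_add hNs hMs
  · rcases eq_or_ne (N x) 0 with h | h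
    · exact (hMr x fun h' => hx (by simp [h, h'])).mono (le_max_right _ _)
    · exact (hNr x h).mono (le_max_left _ _)

omit [CompleteSpace R] in
theorem neg (hK : Sml A r s K) : Sml A r s (-K) := by
  obtain ⟨hKf, N, hN, hNs, hNr⟩ := hK
  refine ⟨fun a b c => ?_, N, ⟨hN.summable, fun a b => ?_⟩, hNs, hNr⟩
  · simp [hKf]
  · simpa using hN.bound a b

omit [CompleteSpace R] in
theorem sub (hK : Sml A r s K) (hL : Sml A r' s' L) : Sml A (max r r') (s + s') (K - L) := by
  rw [sub_eq_add_neg]; exact hK.add hL.neg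

omit [CompleteSpace R] in
theorem mono (hK : Sml A r s K) (hr : r ≤ r') (hs : s ≤ s') : Sml A r' s' K := by
  obtain ⟨hKf, N, hN, hNs, hNr⟩ := hK
  exact ⟨hKf, N, hN, hNs.trans hs, fun x hx => (hNr x hx).mono hr⟩

theorem norm_le (hK : Sml A r s K) (a b : G) : ‖(K : G → G → R) a b‖ ≤ s := by
  obtain ⟨-, N, hN, hNs, -⟩ := hK
  exact (hN.bound a b).trans ((hN.le_tsum _).trans hNs)

theorem nonneg (hK : Sml A r s K) : 0 ≤ s := (norm_nonneg _).trans (hK.norm_le 1 1)

theorem next_defect {x : kern R g} {ρ : ℕ} {b δ : ℝ} (hx : Sml A ρ b x)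
    (hd : Sml A (2 * ρ) δ (x * x - x)) :
    Sml A (3 * ρ) (δ * (1 + 2 * b)) ((x * x - x) - ((x * x - x) * x + (x * x - x) * x)) ∧
    (δ ≤ 1 / 4 → Sml A (2 * (3 * ρ)) (4 * (δ * δ))
      ((x + ((x * x - x) - ((x * x - x) * x + (x * x - x) * x))) *
        (x + ((x * x - x) - ((x * x - x) * x + (x * x - x) * x))) -
        (x + ((x * x - x) - ((x * x - x) * x + (x * x - x) * x))))) := by
  set d := x * x - x with hdd
  refine ⟨(hd.sub ((hd.mul hx).add (hd.mul hx))).mono (by omega) (le_of_eq (by ring)), fun hδ => ?_⟩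
  have e : (x + (d - (d * x + d * x))) * (x + (d - (d * x + d * x))) - (x + (d - (d * x + d * x))) =
      (d * d * d + d * d * d + (d * d * d + d * d * d)) - (d * d + (d * d + d * d)) := by
    simp only [hdd, mul_add, add_mul, mul_sub, sub_mul, mul_assoc]
    abel
  rw [e]
  have h3 := (hd.mul hd).mul hd
  have h2 := hd.mul hd
  refine (((h3.add h3).add (h3.add h3)).sub (h2.add (h2.add h2))).mono (by omega) ?_
  have h0 := hd.nonneg
  nlinarith [mul_nonneg h0 h0]

end Sml

open Classical in
/-- An almost idempotent invariant kernel of finite support gives an idempotent with moments. -/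
theorem exists_limit {x0 : kern R g} {B ε : ℝ} (hx : Sml A 1 B x0)
    (hd : Sml A 2 ε (x0 * x0 - x0)) (hε : 4 * ε ≤ 1 / 2) (hK : 2 * ε * (3 + 2 * B) ≤ 1) :
    ∃ (P : kern R g) (N : G → ℝ), P * P = P ∧
      (∀ a b c, (P : G → G → R) (a * c) (b * c) = (P : G → G → R) a b) ∧
      Bd (P : G → G → R) N ∧ (∀ x, N x ≠ 0 → x ∈ Subgroup.closure (A : Set G)) ∧
      (∀ j : ℕ, Summable fun x : Subgroup.closure (A : Set G) =>
        N (x : G) * (1 + (wlen x : ℝ)) ^ j) ∧
      ∃ M, Bd ((P - x0 : kern R g) : G → G → R) M ∧ ∑' x, M x ≤ 2 * ε * (3 + 2 * B) := by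
  have hε0 : 0 ≤ ε := hd.nonneg
  have hB0 : 0 ≤ B := hx.nonneg
  set Kc := 3 + 2 * B with hKc
  let step : kern R g → kern R g := fun x => x + ((x * x - x) - ((x * x - x) * x + (x * x - x) * x))
  let u : ℕ → kern R g := fun k => step^[k] x0
  let inc : ℕ → kern R g := fun k =>
    (u k * u k - u k) - ((u k * u k - u k) * u k + (u k * u k - u k) * u k)
  have hu : ∀ k, u (k + 1) = u k + inc k := fun k => Function.iterate_succ_apply' step k x0
  let δ : ℕ → ℝ := fun k => ε * (4 * ε) ^ (2 ^ k - 1)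
  have hδle : ∀ k, δ k ≤ ε * (1 / 2) ^ (2 ^ k - 1) := fun k =>
    mul_le_mul_of_nonneg_left (pow_le_pow_left₀ (by positivity) hε _) hε0
  have hδ2 : ∀ k, δ k ≤ ε * (1 / 2) ^ k := fun k => (hδle k).trans
    (mul_le_mul_of_nonneg_left (pow_le_pow_of_le_one (by norm_num) (by norm_num)
      (Nat.le_sub_one_of_lt k.lt_two_pow_self)) hε0)
  have key : ∀ k, Sml A (3 ^ k) (B + 2 * ε * Kc * (1 - (1 / 2) ^ k)) (u k) ∧
      Sml A (2 * 3 ^ k) (δ k) (u k * u k - u k) := by
    intro k
    induction k with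
    | zero => exact ⟨by simpa [u] using hx, by simpa [u, δ] using hd⟩
    | succ k ih =>
      obtain ⟨ihx, ihd⟩ := ih
      have hδk : δ k ≤ 1 / 4 := (hδ2 k).trans (by
        have : (1 / 2 : ℝ) ^ k ≤ 1 := pow_le_one₀ (by norm_num) (by norm_num)
        nlinarith)
      obtain ⟨hi, hn⟩ := Sml.next_defect ihx ihd
      rw [hu]
      refine ⟨(ihx.add hi).mono (by rw [pow_succ]; omega) ?_, (hn hδk).mono (by rw [pow_succ]; omega) ?_⟩
      · have h0 : (0 : ℝ) ≤ (1 / 2) ^ k := by positivity
        have h1 : B + 2 * ε * Kc * (1 - (1 / 2) ^ k) ≤ B + 1 := by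
          nlinarith [mul_nonneg (mul_nonneg hε0 (show (0 : ℝ) ≤ Kc by positivity)) h0]
        have h2 : δ k * (1 + 2 * (B + 2 * ε * Kc * (1 - (1 / 2) ^ k))) ≤ ε * (1 / 2) ^ k * Kc :=
          mul_le_mul (hδ2 k) (by linarith) (by linarith [ihx.nonneg]) (by positivity)
        rw [pow_succ (1 / 2 : ℝ)]
        linarith
      · refine le_of_eq ?_
        simp only [δ]
        have h : 2 ^ (k + 1) - 1 = 2 * (2 ^ k - 1) + 1 := by
          have := Nat.one_le_two_pow (n := k)
          rw [pow_succ]; omega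
        rw [h, pow_succ, pow_mul']
        ring
  have hinc : ∀ k, Sml A (3 ^ (k + 1)) (δ k * Kc) (inc k) := fun k => by
    refine (Sml.next_defect (key k).1 (key k).2).1.mono (by rw [pow_succ]; omega) ?_
    have h0 : (0 : ℝ) ≤ (1 / 2) ^ k := by positivity
    refine mul_le_mul_of_nonneg_left ?_ (key k).2.nonneg
    nlinarith [mul_nonneg (mul_nonneg hε0 (show (0 : ℝ) ≤ Kc by positivity)) h0]
  obtain ⟨hx0f, N0, hN0, hN0s, hN0r⟩ := hx
  choose hincf Nk hNk hNks hNkr using hinc
  have hnn : ∀ k x, 0 ≤ Nk k x := fun k => (hNk k).nonneg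
  have hgeo : Summable fun k : ℕ => ε * (1 / 2 : ℝ) ^ k * Kc :=
    ((summable_geometric_of_lt_one (by norm_num) (by norm_num)).mul_left ε).mul_right Kc
  have hks : ∀ k, ∑' x, Nk k x ≤ ε * (1 / 2) ^ k * Kc := fun k => (hNks k).trans
    (mul_le_mul_of_nonneg_right (hδ2 k) (by positivity))
  have hpairs : Summable fun p : ℕ × G => Nk p.1 p.2 :=
    (summable_prod_of_nonneg fun p => hnn _ _).2 ⟨fun k => (hNk k).summable,
      Summable.of_nonneg_of_le (fun k => (hNk k).tsum_nonneg) hks hgeo⟩
  have hk : ∀ x, Summable fun k => Nk k x := fun x => (hpairs.prod_symm).prod_factor x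
  have hkk : ∀ a b, Summable fun k => (inc k : G → G → R) a b := fun a b =>
    Summable.of_norm_bounded (hk (a * b⁻¹)) fun k => (hNk k).bound a b
  -- the tail of the series
  let tail : ℕ → G → ℝ := fun n x => ∑' k, Nk (n + k) x
  have htp : ∀ n, Summable fun p : ℕ × G => Nk (n + p.1) p.2 := fun n =>
    hpairs.comp_injective (i := fun p : ℕ × G => (n + p.1, p.2)) fun p p' h => by
      simp only [Prod.mk.injEq, Nat.add_left_cancel_iff] at h
      exact Prod.ext h.1 h.2
  have htail : ∀ n, Summable (tail n) ∧ ∑' x, tail n x ≤ 2 * ε * Kc * (1 / 2) ^ n := by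
    intro n
    refine ⟨(htp n).prod_symm.prod, ?_⟩
    show ∑' x, ∑' k, Nk (n + k) x ≤ _
    rw [Summable.tsum_comm (f := fun k x => Nk (n + k) x) (htp n)]
    refine ((htp n).prod.tsum_le_tsum (fun k => hks (n + k))
      ((hgeo.comp_injective (i := fun k => n + k) (add_right_injective n)))).trans (le_of_eq ?_)
    simp only [pow_add]
    rw [tsum_mul_right, show (fun k => ε * ((1 / 2 : ℝ) ^ n * (1 / 2) ^ k)) =
      fun k => ε * (1 / 2) ^ n * (1 / 2) ^ k from funext fun k => (mul_assoc _ _ _).symm,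
      tsum_mul_left, tsum_geometric_of_lt_one (by norm_num) (by norm_num)]
    ring
  let N : G → ℝ := fun x => N0 x + ∑' k, Nk k x
  have hNs : Summable N := hN0.summable.add (hpairs.prod_symm).prod
  let P : kern R g := ⟨fun a b => (x0 : G → G → R) a b + ∑' k, (inc k : G → G → R) a b,
    fun a b c _ => by simp only [hx0f, hincf], N, hNs, fun a b => (norm_add_le _ _).trans
      (add_le_add (hN0.bound a b) (tsum_of_norm_bounded (hk _).hasSum fun k => (hNk k).bound a b))⟩
  have hP : ∀ a b, (P : G → G → R) a b = (x0 : G → G → R) a b + ∑' k, (inc k : G → G → R) a b :=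
    fun a b => rfl
  have hNB : Bd (P : G → G → R) N := ⟨hNs, fun a b => (norm_add_le _ _).trans
    (add_le_add (hN0.bound a b) (tsum_of_norm_bounded (hk _).hasSum fun k => (hNk k).bound a b))⟩
  have hfin : ∀ n a b, (u n : G → G → R) a b =
      (x0 : G → G → R) a b + ∑ k ∈ Finset.range n, (inc k : G → G → R) a b := by
    intro n a b
    induction n with
    | zero => simp [u]
    | succ n ih =>
      rw [hu, Finset.sum_range_succ]
      show (u n : G → G → R) a b + (inc n : G → G → R) a b = _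
      rw [ih, add_assoc]
  have hdiff : ∀ n, Bd ((P - u n : kern R g) : G → G → R) (tail n) := fun n =>
    ⟨(htail n).1, fun a b => by
      simp only [AddSubgroup.coe_sub, Pi.sub_apply, hP, hfin, add_sub_add_left_eq_sub]
      rw [← (hkk a b).sum_add_tsum_nat_add n, add_sub_cancel_left]
      have hs : Summable fun k => Nk (n + k) (a * b⁻¹) :=
        (hk _).comp_injective (i := fun k => n + k) (add_right_injective n)
      refine tsum_of_norm_bounded hs.hasSum fun k => ?_
      rw [add_comm k n]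
      exact (hNk _).bound a b⟩
  have hidem : P * P = P := by
    refine kern_ext fun a b => sub_eq_zero.1 (norm_le_zero_iff.1 ?_)
    have hlim : Tendsto (fun n => 2 * ε * Kc * (1 / 2) ^ n * (∑' x, N x) +
        (B + 1) * (2 * ε * Kc * (1 / 2) ^ n) + ε * (1 / 2) ^ n + 2 * ε * Kc * (1 / 2) ^ n) atTop
        (𝓝 0) := by
      have h := tendsto_pow_atTop_nhds_zero_of_lt_one (by norm_num : (0 : ℝ) ≤ 1 / 2) (by norm_num)
      have := ((((h.const_mul (2 * ε * Kc)).mul_const (∑' x, N x)).add
        ((h.const_mul (2 * ε * Kc)).const_mul (B + 1))).add (h.const_mul ε)).add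
        (h.const_mul (2 * ε * Kc))
      simpa [mul_assoc] using this
    refine ge_of_tendsto' hlim fun n => ?_
    have e : P * P - P = (P - u n) * P + u n * (P - u n) + (u n * u n - u n) - (P - u n) := by
      simp only [mul_sub, sub_mul]; abel
    rw [show ((P * P : kern R g) : G → G → R) a b - (P : G → G → R) a b =
      ((P * P - P : kern R g) : G → G → R) a b from rfl, e]
    simp only [AddSubgroup.coe_sub, AddSubgroup.coe_add, Pi.sub_apply, Pi.add_apply]
    obtain ⟨-, Nu, hNu, hNus, -⟩ := (key n).1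
    have hb1 : ‖((P - u n) * P : kern R g).1 a b‖ ≤ 2 * ε * Kc * (1 / 2) ^ n * ∑' x, N x := by
      have h := (hdiff n).mul hNB
      refine (h.bound a b).trans ((h.le_tsum _).trans ?_)
      rw [(hdiff n).tsum_conv hNB]
      exact mul_le_mul_of_nonneg_right (htail n).2 hNB.tsum_nonneg
    have hb2 : ‖(u n * (P - u n) : kern R g).1 a b‖ ≤ (B + 1) * (2 * ε * Kc * (1 / 2) ^ n) := by
      have h := hNu.mul (hdiff n)
      refine (h.bound a b).trans ((h.le_tsum _).trans ?_)
      rw [hNu.tsum_conv (hdiff n)]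
      refine mul_le_mul (hNus.trans ?_) (htail n).2 (hdiff n).tsum_nonneg (by linarith)
      have h0 : (0 : ℝ) ≤ (1 / 2) ^ n := by positivity
      nlinarith [mul_nonneg (mul_nonneg hε0 (show (0 : ℝ) ≤ Kc by positivity)) h0]
    have hb3 := ((key n).2.norm_le a b).trans (hδ2 n)
    have hb4 : ‖(P - u n : kern R g).1 a b‖ ≤ 2 * ε * Kc * (1 / 2) ^ n :=
      ((hdiff n).bound a b).trans (((hdiff n).le_tsum _).trans (htail n).2)
    simp only [AddSubgroup.coe_sub, Pi.sub_apply] at hb1 hb2 hb3 hb4 ⊢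
    exact (norm_sub_le _ _).trans (add_le_add ((norm_add_le _ _).trans
      (add_le_add ((norm_add_le _ _).trans (add_le_add hb1 hb2)) hb3)) hb4)
  refine ⟨P, N, hidem, fun a b c => by simp only [hP, hx0f, hincf], hNB, fun x hne => ?_, fun j => ?_,
    tail 0, hdiff 0, by simpa using (htail 0).2⟩
  · by_contra hnot
    refine hne ?_
    have h0 : N0 x = 0 := by
      by_contra h
      exact hnot (hN0r x h).mem
    have h1 : ∀ k, Nk k x = 0 := fun k => by
      by_contra h
      exact hnot (hNkr k x h).mem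
    simp [N, h0, h1]
  · let w : Subgroup.closure (A : Set G) → ℝ := fun x => (1 + (wlen x : ℝ)) ^ j
    have hw : ∀ x, 0 ≤ w x := fun x => by positivity
    have hbd : ∀ (r : ℕ) (Mf : G → ℝ), (∀ x, 0 ≤ Mf x) → (∀ x, Mf x ≠ 0 → Word A r x) →
        ∀ x : Subgroup.closure (A : Set G), Mf x * w x ≤ (1 + (r : ℝ)) ^ j * Mf x := by
      intro r Mf h0 hr x
      rcases eq_or_ne (Mf (x : G)) 0 with h | h
      · simp [h]
      · rw [mul_comm]
        refine mul_le_mul_of_nonneg_right (pow_le_pow_left₀ (by positivity) ?_ j) (h0 _)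
        exact add_le_add le_rfl (Nat.cast_le.2 (wlen_le (hr _ h)))
    have hk0 : Summable fun x : Subgroup.closure (A : Set G) => N0 x * w x :=
      Summable.of_nonneg_of_le (fun x => mul_nonneg (hN0.nonneg _) (hw x))
        (hbd 1 N0 hN0.nonneg hN0r)
        ((hN0.summable.comp_injective Subtype.val_injective).mul_left _)
    have hkk' : ∀ k, Summable fun x : Subgroup.closure (A : Set G) =>
        (1 + ((3 ^ (k + 1) : ℕ) : ℝ)) ^ j * Nk k x :=
      fun k => (((hNk k).summable.comp_injective Subtype.val_injective).mul_left _)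
    have hp : Summable fun p : ℕ × Subgroup.closure (A : Set G) =>
        (1 + ((3 ^ (p.1 + 1) : ℕ) : ℝ)) ^ j * Nk p.1 p.2 := by
      refine (summable_prod_of_nonneg fun p => mul_nonneg (by positivity) (hnn _ _)).2 ⟨hkk', ?_⟩
      have hser : Summable fun k : ℕ =>
          (4 : ℝ) ^ j * ε * Kc * (((2 ^ k : ℕ) : ℝ) ^ (2 * j) * (1 / 2) ^ (2 ^ k - 1)) := by
        refine Summable.mul_left _ ?_
        have h := (summable_pow_mul_geometric_of_norm_lt_one (2 * j)
          (r := (1 / 2 : ℝ)) (by norm_num)).mul_right 2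
        refine (h.comp_injective (i := fun k => 2 ^ k) fun a b h => Nat.pow_right_injective le_rfl h).congr
          fun k => ?_
        have hk1 : (2 ^ k : ℕ) = (2 ^ k - 1) + 1 := (Nat.sub_add_cancel Nat.one_le_two_pow).symm
        simp only [Function.comp_apply]
        conv_lhs => rw [hk1, pow_succ]
        rw [← hk1]
        ring
      refine Summable.of_nonneg_of_le (fun k => tsum_nonneg fun x => mul_nonneg (by positivity) (hnn _ _))
        (fun k => ?_) hser
      simp only [tsum_mul_left]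
      refine le_trans (mul_le_mul_of_nonneg_left (((tsum_comp_le_tsum_of_inj (hNk k).summable
        (hnn k) Subtype.val_injective)).trans (hNks k)) (by positivity)) ?_
      have h3 : 1 + ((3 ^ (k + 1) : ℕ) : ℝ) ≤ 4 * (((2 ^ k : ℕ) : ℝ) ^ 2) := by
        push_cast
        rw [← pow_mul, mul_comm k 2, pow_mul, pow_succ]
        norm_num
        have : (3 : ℝ) ^ k ≤ 4 ^ k := pow_le_pow_left₀ (by norm_num) (by norm_num) k
        have : (1 : ℝ) ≤ 4 ^ k := one_le_pow₀ (by norm_num)
        linarith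
      refine (mul_le_mul (pow_le_pow_left₀ (by positivity) h3 j)
        (mul_le_mul_of_nonneg_right (hδle k) (by positivity))
        (mul_nonneg (key k).2.nonneg (by positivity)) (by positivity)).trans (le_of_eq ?_)
      rw [mul_pow, ← pow_mul]
      ring
    have hq : Summable fun x : Subgroup.closure (A : Set G) =>
        ∑' k, (1 + ((3 ^ (k + 1) : ℕ) : ℝ)) ^ j * Nk k x := hp.prod_symm.prod
    refine Summable.of_nonneg_of_le (fun x => mul_nonneg (hNB.nonneg _) (hw x)) (fun x => ?_)
      (hk0.add hq)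
    show (N0 x + ∑' k, Nk k x) * w x ≤ _
    rw [add_mul, ← tsum_mul_right]
    refine add_le_add le_rfl (((hk _).mul_right (w x)).tsum_le_tsum (fun k => hbd _ _ (hnn k) (hNkr k) x) ?_)
    exact hp.prod_symm.prod_factor x

end Vale.P184.Winding
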