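import Mathlib

/-!
P184: cyclic tuples, their periodic partial products and the weights `tr (M h₀ ⋯ M h_m)`.
-/

namespace Vale.P184.Winding

open scoped Matrix.Norms.Operator

open Fin.NatCast

variable {G : Type*} [Group G] {q m : ℕ}

/-- Partial products of the periodic word of a tuple. -/
def z (h : Fin (m + 1) → G) : ℕ → G
  | 0 => 1
  | n + 1 => z h n * h (n : Fin (m + 1))

/-- Rotation of a tuple. -/
def rot (r : Fin (m + 1)) : (Fin (m + 1) → G) ≃ (Fin (m + 1) → G) where
  toFun h i := h (i + r)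
  invFun h i := h (i - r)
  left_inv h := by funext i; simp
  right_inv h := by funext i; simp

omit [Group G] in
theorem rot_apply (r : Fin (m + 1)) (h : Fin (m + 1) → G) (i : Fin (m + 1)) :
    rot r h i = h (i + r) := rfl

theorem z_rot (r : Fin (m + 1)) (h : Fin (m + 1) → G) (j : ℕ) :
    z (rot r h) j = (z h r)⁻¹ * z h (r + j) := by
  induction j with
  | zero => simp [z]
  | succ j ih =>
    show z (rot r h) j * rot r h (j : Fin (m + 1)) = _
    rw [ih, ← add_assoc]
    show _ = (z h r)⁻¹ * (z h (r + j) * h ((r + j : ℕ) : Fin (m + 1)))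
    rw [rot_apply, mul_assoc, Nat.cast_add, Fin.cast_val_eq_self, add_comm (r : Fin (m + 1))]

theorem z_add_period (h : Fin (m + 1) → G) (j : ℕ) : z h (m + 1 + j) = z h (m + 1) * z h j := by
  induction j with
  | zero => simp [z]
  | succ j ih =>
    show z h (m + 1 + j) * h ((m + 1 + j : ℕ) : Fin (m + 1)) = _
    rw [ih, Nat.cast_add, Fin.natCast_self, zero_add, mul_assoc]
    rfl

theorem edge_z (h : Fin (m + 1) → G) (j : Fin (m + 1)) : (z h j)⁻¹ * z h (j + 1) = h j := by
  show (z h j)⁻¹ * (z h j * h ((j : ℕ) : Fin (m + 1))) = _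
  simp

/-- The vertices left when the vertex `i` of a closed polygon is dropped. -/
def pt (i : Fin (m + 1 + 1)) (h : Fin (m + 1 + 1) → G) (j : ℕ) : G :=
  if j < m + 1 then z h (if j < (i : ℕ) then j else j + 1)
  else z h (m + 1 + 1) * z h (if 0 < (i : ℕ) then 0 else 1)

/-- The tuple of the polygon with the vertex `i` dropped. -/
def mrg (i : Fin (m + 1 + 1)) (h : Fin (m + 1 + 1) → G) (j : Fin (m + 1)) : G :=
  (pt i h j)⁻¹ * pt i h (j + 1)

theorem z_mrg (i : Fin (m + 1 + 1)) (h : Fin (m + 1 + 1) → G) {j : ℕ} (hj : j ≤ m + 1) :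
    z (mrg i h) j = (pt i h 0)⁻¹ * pt i h j := by
  induction j with
  | zero => simp [z]
  | succ j ih =>
    show z (mrg i h) j * mrg i h (j : Fin (m + 1)) = _
    rw [ih (by omega), mrg, Fin.val_natCast, Nat.mod_eq_of_lt (by omega)]
    group

theorem pt_zero (i : Fin (m + 1 + 1)) (h : Fin (m + 1 + 1) → G) :
    pt i h 0 = z h (if 0 < (i : ℕ) then 0 else 1) := by simp [pt]

theorem pt_last (i : Fin (m + 1 + 1)) (h : Fin (m + 1 + 1) → G) :
    pt i h (m + 1) = z h (m + 1 + 1) * pt i h 0 := by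
  rw [pt_zero]; simp [pt]

theorem pt_succAbove (i : Fin (m + 1 + 1)) (h : Fin (m + 1 + 1) → G) (j : Fin (m + 1)) :
    pt i h j = z h (i.succAbove j) := by
  rw [pt, if_pos j.2]
  by_cases hji : (j : ℕ) < i
  · rw [if_pos hji, Fin.succAbove_of_castSucc_lt i j (by simpa [Fin.lt_def] using hji)]
    rfl
  · rw [if_neg hji, Fin.succAbove_of_le_castSucc i j (by simpa [Fin.le_def] using hji)]
    rfl

/-- Rotating by one shifts the dropped vertex. -/
theorem mrg_rot (i : Fin (m + 1)) (h : Fin (m + 1 + 1) → G) :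
    mrg i.castSucc (rot 1 h) = rot 1 (mrg i.succ h) := by
  have hz : ∀ j, z (rot (1 : Fin (m + 1 + 1)) h) j = (z h 1)⁻¹ * z h (1 + j) := fun j => by
    simpa using z_rot (1 : Fin (m + 1 + 1)) h j
  have hi := i.2
  have hp0 : pt i.succ h 0 = 1 := by simp [pt_zero, z]
  have hp : ∀ j, j < m + 1 → pt i.castSucc (rot 1 h) j =
      (z h 1)⁻¹ * z h (1 + if j < (i : ℕ) then j else j + 1) := fun j hj => by
    rw [pt, if_pos hj, hz]; rfl
  have hq : ∀ j, j < m → pt i.castSucc (rot 1 h) j = (z h 1)⁻¹ * pt i.succ h (j + 1) := fun j hj => by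
    rw [hp j (by omega), pt, if_pos (show j + 1 < m + 1 by omega)]
    congr 2
    simp only [Fin.val_succ, Nat.add_lt_add_iff_right]
    split_ifs <;> omega
  have h0 : pt i.castSucc (rot 1 h) 0 = (z h 1)⁻¹ * pt i.succ h 1 := by
    rcases Nat.eq_zero_or_pos m with hm | hm
    · subst hm
      rw [hp 0 (by omega), pt, if_neg (show ¬ (1 < 0 + 1) by omega)]
      obtain rfl : i = 0 := Fin.ext (by omega)
      simp [z]
    · exact hq 0 hm
  funext j
  show (pt i.castSucc (rot 1 h) j)⁻¹ * pt i.castSucc (rot 1 h) (j + 1) =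
    (pt i.succ h (j + 1 : Fin (m + 1)))⁻¹ * pt i.succ h ((j + 1 : Fin (m + 1)) + 1)
  rcases (Nat.lt_or_ge (j : ℕ) m) with hj | hj
  · have hv : ((j + 1 : Fin (m + 1)) : ℕ) = j + 1 :=
      Fin.val_add_one_of_lt (by simpa [Fin.lt_def] using hj)
    rw [hv]
    rcases (Nat.lt_or_ge ((j : ℕ) + 1) m) with hj' | hj'
    · rw [hq _ hj, hq _ hj']; group
    · have e1 : (j : ℕ) + 1 + 1 = m + 1 := by omega
      have e2 : (j : ℕ) + 1 = m := by omega
      rw [hq _ hj, e1, pt_last, hp0, e2, hp m (by omega), if_neg (by omega)]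
      have : 1 + (m + 1) = m + 1 + 1 := by omega
      rw [this]; group
  · have hjm : (j : ℕ) = m := by have := j.2; omega
    have hv : j + 1 = 0 := by
      apply Fin.ext
      simp [Fin.val_add, hjm]
    rw [hv, hjm, pt_last, h0, hp m (by omega), if_neg (by omega)]
    have e : z (rot (1 : Fin (m + 1 + 1)) h) (m + 1 + 1) = (z h 1)⁻¹ * (z h (m + 1 + 1) * z h 1) := by
      rw [hz, add_comm 1, z_add_period]
    rw [e]
    have : 1 + (m + 1) = m + 1 + 1 := by omega
    simp [this, hp0, mul_assoc]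

variable (M : G → Matrix (Fin q) (Fin q) ℂ)

/-- The weight of a tuple. -/
noncomputable def wt (h : Fin (m + 1) → G) : ℂ := ((List.ofFn fun i => M (h i)).prod).trace

omit [Group G] in
theorem wt_rot_one (h : Fin (m + 1) → G) : wt M (rot 1 h) = wt M h := by
  have e : (List.ofFn fun i => M (rot 1 h i)) = (List.ofFn fun i : Fin m => M (h i.succ)) ++ [M (h 0)] := by
    rw [List.ofFn_succ']
    simp [rot_apply, Fin.last_add_one, List.concat_eq_append]
  rw [wt, wt, e, List.ofFn_succ, List.prod_append, List.prod_cons, List.prod_cons, List.prod_nil,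
    mul_one, Matrix.trace_mul_comm]

omit [Group G] in
theorem wt_rot (r : Fin (m + 1)) (h : Fin (m + 1) → G) : wt M (rot r h) = wt M h := by
  obtain ⟨n, hn⟩ : ∃ n : ℕ, ((n : Fin (m + 1))) = r := ⟨r, Fin.cast_val_eq_self r⟩
  subst hn
  induction n generalizing h with
  | zero => simp [rot, wt]
  | succ n ih =>
    have : rot ((n + 1 : ℕ) : Fin (m + 1)) h = rot (n : Fin (m + 1)) (rot 1 h) := by
      funext i; simp [rot_apply, add_assoc]
    rw [this, ih, wt_rot_one]

/-- The product of the norms of the letters, with polynomial weights. -/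
noncomputable def massW (ℓ : G → ℝ) (N : ℕ) (h : Fin m → G) : ℝ :=
  ∏ i, ‖M (h i)‖ * (1 + ℓ (h i)) ^ N

omit [Group G] in
theorem summable_massW (ℓ : G → ℝ) (hℓ : ∀ x, 0 ≤ ℓ x) (N : ℕ)
    (hM : Summable fun x => ‖M x‖ * (1 + ℓ x) ^ N) :
    ∀ m, Summable fun h : Fin m → G => massW M ℓ N h := by
  intro m
  induction m with
  | zero => exact Summable.of_finite
  | succ m ih =>
    have hn : ∀ x, 0 ≤ ‖M x‖ * (1 + ℓ x) ^ N := fun x =>
      mul_nonneg (norm_nonneg _) (pow_nonneg (by linarith [hℓ x]) _)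
    refine ((Fin.consEquiv fun _ => G).summable_iff).1 ?_
    refine (hM.mul_of_nonneg ih hn fun h => Finset.prod_nonneg fun i _ => hn _).congr fun p => ?_
    simp [massW, Fin.prod_univ_succ, Fin.consEquiv]

theorem norm_entry_le (A : Matrix (Fin q) (Fin q) ℂ) (i j : Fin q) : ‖A i j‖ ≤ ‖A‖ := by
  rw [← coe_nnnorm, ← coe_nnnorm, NNReal.coe_le_coe, Matrix.linfty_opNNNorm_def]
  exact (Finset.single_le_sum (f := fun j => ‖A i j‖₊) (fun _ _ => zero_le) (Finset.mem_univ j)).trans
    (Finset.le_sup (f := fun i => ∑ j, ‖A i j‖₊) (Finset.mem_univ i))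

theorem norm_trace_le (A : Matrix (Fin q) (Fin q) ℂ) : ‖A.trace‖ ≤ q * ‖A‖ := by
  refine (norm_sum_le _ _).trans ((Finset.sum_le_card_nsmul _ _ ‖A‖ fun i _ => ?_).trans ?_)
  · exact norm_entry_le A i i
  · simp

omit [Group G] in
theorem norm_wt_le (h : Fin (m + 1) → G) : ‖wt M h‖ ≤ q * ∏ i, ‖M (h i)‖ := by
  refine (norm_trace_le _).trans ?_
  refine mul_le_mul_of_nonneg_left ((List.norm_prod_le' ?_).trans (le_of_eq ?_)) (Nat.cast_nonneg q)
  · simp
  · rw [List.map_ofFn, List.prod_ofFn]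
    rfl

end Vale.P184.Winding
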