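import Vale.Agent.P184.Winding.Bound
import Vale.Agent.P184.Winding.Tuple

/-!
P184: the recursion `C (k + 1) = (k + 1) * C k` for class-localised form sums, and the vanishing.
-/

namespace Vale.P184.Winding

open scoped Matrix.Norms.Operator

open Fin.NatCast Form

variable {G : Type*} [Group G] {E : Type*} [NormedAddCommGroup E] [NormedSpace ℝ E] {q m : ℕ}

/-- Equivariant families of affine one-forms which are vertical-periodic along every element of
`S`, with polynomial growth for the gauge `ℓ`. -/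
structure Datum (S : Set G) (ℓ : G → ℝ) (E : Type*) [NormedAddCommGroup E]
    [NormedSpace ℝ E] where
  /-- the vertices -/
  pos : G → G → E
  /-- the forms -/
  form : G → Form E
  /-- the period -/
  U : G → E
  conj_mem : ∀ x ∈ S, ∀ h, h * x * h⁻¹ ∈ S
  vert : ∀ x ∈ S, (form x).Vert (U x)
  norm_U : ∀ x ∈ S, (form x).θ (U x) = 1
  period : ∀ x ∈ S, ∀ y, pos x (x * y) = pos x y + U x
  equiv : ∀ x ∈ S, ∀ h, ∃ (T : E →ₗ[ℝ] E) (c : E), Maps T c (form x) (form (h * x * h⁻¹)) ∧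
    ∀ y, pos (h * x * h⁻¹) (h * y) = c + T (pos x y)
  bound : ∃ c, ∀ x ∈ S, (form x).BoundedBy c
  growth : ∃ (C : ℝ) (N : ℕ), 0 ≤ C ∧ ∀ x ∈ S, ∀ y, ‖pos x y‖ ≤ C * (1 + ℓ x + ℓ y) ^ N
  ℓ_nonneg : ∀ x, 0 ≤ ℓ x
  ℓ_one : ℓ 1 = 0
  ℓ_mul : ∀ a b, ℓ (a * b) ≤ ℓ a + ℓ b

variable {S : Set G} {ℓ : G → ℝ} (P : Datum S ℓ E)

open Classical in
/-- A function of form and vertices, evaluated on a tuple whose product lies in `S`. -/
noncomputable def ev (φ : Form E → (Fin (m + 1) → E) → ℝ) (h : Fin (m + 1) → G) : ℝ :=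
  if z h (m + 1) ∈ S then φ (P.form (z h (m + 1))) fun j => P.pos (z h (m + 1)) (z h j) else 0

/-- Invariance under the maps of forms. -/
def Nat' (φ : Form E → (Fin (m + 1) → E) → ℝ) : Prop :=
  ∀ (D D' : Form E) (T : E →ₗ[ℝ] E) (c : E), Maps T c D D' →
    ∀ p, φ D' (fun i => c + T (p i)) = φ D p

theorem natF (k : ℕ) : Nat' (E := E) fun D => D.F k := fun D _ _ _ hM p => D.F_map hM k p

theorem natL (k : ℕ) : Nat' (E := E) fun D => D.L k := fun D _ _ _ hM p => D.L_map hM k p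

include P in
theorem conj_mem_iff (h x : G) : h⁻¹ * x * h ∈ S ↔ x ∈ S := by
  have e : h * (h⁻¹ * x * h) * h⁻¹ = x := by group
  constructor
  · intro hx; rw [← e]; exact P.conj_mem _ hx h
  · intro hx; simpa using P.conj_mem x hx h⁻¹

theorem nat_translate {φ : Form E → (Fin (m + 1) → E) → ℝ} (hφ : Nat' φ) {x : G} (hx : x ∈ S)
    (a : G) (y : Fin (m + 1) → G) :
    φ (P.form (a⁻¹ * x * a)) (fun j => P.pos (a⁻¹ * x * a) (a⁻¹ * y j)) =
      φ (P.form x) fun j => P.pos x (y j) := by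
  obtain ⟨T, c, hM, hp⟩ := P.equiv x hx a⁻¹
  rw [inv_inv] at hM hp
  rw [funext fun j => hp (y j)]
  exact hφ _ _ T c hM _

open Classical in
theorem ev_rot {φ : Form E → (Fin (m + 1) → E) → ℝ} (hφ : Nat' φ) (r : Fin (m + 1))
    (h : Fin (m + 1) → G) :
    ev P φ (rot r h) = if z h (m + 1) ∈ S then
      φ (P.form (z h (m + 1))) (fun j => P.pos (z h (m + 1)) (z h (r + j))) else 0 := by
  have hx : z (rot r h) (m + 1) = (z h r)⁻¹ * z h (m + 1) * z h r := by
    rw [z_rot, add_comm (r : ℕ), z_add_period, mul_assoc]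
  rw [ev]
  by_cases hS : z h (m + 1) ∈ S
  · rw [if_pos hS, if_pos (hx ▸ (conj_mem_iff P _ _).2 hS), hx]
    simp only [z_rot]
    exact nat_translate P hφ hS _ _
  · rw [if_neg hS, if_neg fun h' => hS ((conj_mem_iff P _ _).1 (hx ▸ h'))]

open Classical in
theorem ev_mrg {φ : Form E → (Fin (m + 1) → E) → ℝ} (hφ : Nat' φ) (i : Fin (m + 1 + 1))
    (h : Fin (m + 1 + 1) → G) :
    ev P φ (mrg i h) = if z h (m + 1 + 1) ∈ S then
      φ (P.form (z h (m + 1 + 1)))
        (i.removeNth fun j => P.pos (z h (m + 1 + 1)) (z h j)) else 0 := by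
  have hx : z (mrg i h) (m + 1) = (pt i h 0)⁻¹ * z h (m + 1 + 1) * pt i h 0 := by
    rw [z_mrg i h le_rfl, pt_last, mul_assoc]
  rw [ev]
  by_cases hS : z h (m + 1 + 1) ∈ S
  · rw [if_pos hS, if_pos (hx ▸ (conj_mem_iff P _ _).2 hS), hx]
    have e : (fun j : Fin (m + 1) => P.pos ((pt i h 0)⁻¹ * z h (m + 1 + 1) * pt i h 0) (z (mrg i h) j)) =
        fun j : Fin (m + 1) => P.pos ((pt i h 0)⁻¹ * z h (m + 1 + 1) * pt i h 0)
          ((pt i h 0)⁻¹ * z h (i.succAbove j)) := by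
      funext j
      rw [z_mrg i h (by omega), pt_succAbove]
    rw [e]
    exact nat_translate P hφ hS _ _
  · rw [if_neg hS, if_neg fun h' => hS ((conj_mem_iff P _ _).1 (hx ▸ h'))]

theorem sign_addRight {n : ℕ} (hn : Odd n) (r : Fin (n + 1)) :
    ((Equiv.Perm.sign (Equiv.addRight r) : ℤ) : ℝ) = (-1) ^ (r : ℕ) := by
  obtain ⟨j, rfl⟩ : ∃ j : Fin (n + 1), j = r := ⟨r, rfl⟩
  induction j using Fin.induction with
  | zero => simp
  | succ i ih =>
    have e : Equiv.addRight i.succ = finRotate (n + 1) * Equiv.addRight i.castSucc := by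
      refine Equiv.ext fun a => ?_
      simp [add_assoc, Fin.coeSucc_eq_succ]
    rw [e, map_mul, Units.val_mul, Int.cast_mul, ih, sign_finRotate]
    simp [hn.neg_one_pow, pow_succ]

theorem alt_sum (k : ℕ) :
    ∑ i : Fin (2 * k + 1 + 1), (-1 : ℝ) ^ (i : ℕ) * (2 * (k : ℝ) + 1 - (i : ℕ)) = (k : ℝ) + 1 := by
  rw [Fin.sum_univ_eq_sum_range (fun i => (-1 : ℝ) ^ i * (2 * (k : ℝ) + 1 - (i : ℝ)))]
  induction k with
  | zero => norm_num [Finset.sum_range_succ]
  | succ k ih =>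
    rw [show 2 * (k + 1) + 1 + 1 = 2 * k + 1 + 1 + 1 + 1 by ring, Finset.sum_range_succ',
      Finset.sum_range_succ']
    have e : ∀ i : ℕ, (-1 : ℝ) ^ (i + 1 + 1) * (2 * ((k + 1 : ℕ) : ℝ) + 1 - ((i + 1 + 1 : ℕ) : ℝ)) =
        (-1) ^ i * (2 * (k : ℝ) + 1 - (i : ℝ)) := fun i => by push_cast; ring
    simp only [e, ih]
    push_cast
    ring

theorem alt_ones (n : ℕ) : ∑ i : Fin (2 * n), (-1 : ℝ) ^ (i : ℕ) = 0 := by
  rw [Fin.sum_univ_eq_sum_range (fun i => (-1 : ℝ) ^ i)]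
  induction n with
  | zero => simp
  | succ n ih =>
    rw [show 2 * (n + 1) = 2 * n + 1 + 1 by ring, Finset.sum_range_succ, Finset.sum_range_succ, ih,
      pow_succ]
    ring

theorem rot_sum (k : ℕ) (h : Fin (2 * k + 1 + 1) → G) :
    ∑ r : Fin (2 * k + 1 + 1), (-1 : ℝ) ^ (r : ℕ) * ev P (fun D => D.L k) (rot r h) =
      (2 * (k : ℝ) + 2) * ev P (fun D => D.L k) h - (2 * (k : ℝ) + 2) *
        ∑ i : Fin (2 * k + 1 + 1), (-1 : ℝ) ^ (i : ℕ) * (2 * (k : ℝ) + 1 - (i : ℕ)) *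
          ev P (fun D => D.F k) (mrg i h) := by
  classical
  simp only [ev_rot P (natL k), ev_mrg P (natF k)]
  rw [ev]
  by_cases hS : z h (2 * k + 1 + 1) ∈ S
  swap
  · simp [hS]
  simp only [if_pos hS]
  set x := z h (2 * k + 1 + 1) with hx
  set D := P.form x
  set p : Fin (2 * k + 1 + 1) → E := fun j => P.pos x (z h j)
  set δ : Fin (2 * k + 1 + 1) → Fin (2 * k + 1 + 1) → ℝ := fun r i => if i < r then 1 else 0
  have key : ∀ r : Fin (2 * k + 1 + 1), (-1 : ℝ) ^ (r : ℕ) *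
      D.L k (fun j => P.pos x (z h (r + j))) = D.L k (fun i => p i + δ r i • P.U x) := by
    intro r
    have e : (fun j : Fin (2 * k + 1 + 1) => P.pos x (z h ((r : ℕ) + j))) =
        (fun i => p i + δ r i • P.U x) ∘ Equiv.addRight r := by
      funext j
      simp only [Function.comp_apply, Equiv.coe_addRight, p, δ, Fin.lt_def, Fin.val_add]
      have hj := j.2
      have hr := r.2
      rcases Nat.lt_or_ge ((j : ℕ) + r) (2 * k + 1 + 1) with hlt | hge
      · simp only [Nat.mod_eq_of_lt hlt]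
        rw [if_neg (by omega), zero_smul, add_zero, add_comm (r : ℕ)]
      · have e' : ((j : ℕ) + r) % (2 * k + 1 + 1) = j + r - (2 * k + 1 + 1) := by
          rw [Nat.mod_eq_sub_mod hge, Nat.mod_eq_of_lt (by omega)]
        simp only [e']
        rw [if_pos (by omega), one_smul, ← P.period x hS, hx, ← z_add_period]
        congr 2
        omega
    rw [e, L_perm, sign_addRight ⟨k, rfl⟩, ← mul_assoc, ← pow_add, Even.neg_one_pow ⟨_, rfl⟩,
      one_mul]
  simp only [key, D.L_shift (P.vert x hS) (P.norm_U x hS), Finset.sum_sub_distrib]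
  have hcount : ∀ i : Fin (2 * k + 1 + 1), ∑ r, δ r i = 2 * (k : ℝ) + 1 - (i : ℕ) := by
    intro i
    simp only [δ, Finset.sum_boole]
    rw [show Finset.univ.filter (fun r : Fin (2 * k + 1 + 1) => i < r) = Finset.Ioi i by
      ext r; simp, Fin.card_Ioi, Nat.cast_sub (by omega)]
    rw [Nat.cast_sub (by omega)]
    push_cast
    ring
  rw [Finset.sum_const, Finset.card_univ, Fintype.card_fin, nsmul_eq_mul, ← Finset.mul_sum,
    Finset.sum_comm]
  push_cast
  refine congrArg₂ (· - ·) (by ring) ?_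
  congr 1
  refine Finset.sum_congr rfl fun i _ => ?_
  rw [← hcount i, Finset.mul_sum, Finset.sum_mul]
  exact Finset.sum_congr rfl fun r _ => by ring

theorem face_sum (k : ℕ) (h : Fin (2 * k + 1 + 1 + 1) → G) :
    ∑ i : Fin (2 * k + 1 + 1 + 1), (-1 : ℝ) ^ (i : ℕ) * ev P (fun D => D.L k) (mrg i h) =
      ev P (fun D => D.F (k + 1)) h := by
  classical
  have e : ∀ i : Fin (2 * k + 1 + 1 + 1), ev P (fun D => D.L k) (mrg i h) = _ := fun i =>
    ev_mrg P (natL k) i h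
  simp only [e]
  show _ = if z h (2 * k + 1 + 1 + 1) ∈ S then _ else (0 : ℝ)
  by_cases hS : z h (2 * k + 1 + 1 + 1) ∈ S
  · simp only [if_pos hS]
    exact Form.sum_L_removeNth _ k _
  · simp [hS]

end Vale.P184.Winding
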